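import Vale.Agent.P257.V4.L.LeibJ
import Vale.Agent.P257.V4.O.Cells

/-!
# P257, part L (Leibniz rule): the vanishing hypotheses

`U : UnitCof R`, `F : UnitFib R`, `X` an object. From

* `(SPJ)`: `Zr ((U.cobar.B a (𝟙_ T))⟦k⟧) (R ⊗ U.cobar.B b X)` unless `q ∣ k`,
* `(CON)`: `Zr ((𝟙_ T)⟦n⟧) (U.cobar.B s X)` for `n < q * s`,

we deduce, for `q = n + 1`, all vanishing hypotheses of (L2), (L3), (R1), (L4):
`van_a`, `van_b`, `van_c₁`, `van_c₂`, `van_c₃`, `van_d`, `van_e`.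
`Jsh U X M c k` : `M` is isomorphic to `(U.cobar.B c X)⟦k⟧`.
-/

open CategoryTheory MonoidalCategory Limits Pretriangulated MonObj

set_option linter.unusedSectionVars false

universe v u

namespace Vale.Agent.P257.V4.L

open Vale.Agent.P251.T Vale.Agent.P251.S Vale.Agent.P257.V4.O

variable {T : Type u} [Category.{v} T] [Preadditive T] [HasZeroObject T] [HasShift T ℤ]
  [∀ n : ℤ, (shiftFunctor T n).Additive] [Pretriangulated T]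
  [MonoidalCategory T] [SymmetricCategory T] [TensorTriangulated T] [IsTriangulated T]

/-- `M` is isomorphic to `(U.cobar.B c X)⟦k⟧`. -/
def Jsh {R : T} [MonObj R] (U : UnitCof R) (X M : T) (c : ℕ) (k : ℤ) : Prop :=
  Nonempty (M ≅ (U.cobar.B c X)⟦k⟧)

/-- `N ⊗ Y⟦k⟧ ≅ (N ⊗ Y)⟦k⟧` -/
noncomputable def tensShift (N Y : T) (k : ℤ) : N ⊗ (Y⟦k⟧) ≅ (N ⊗ Y)⟦k⟧ :=
  ((tensorLeft N).commShiftIso k).app Y

lemma exists_J_B {R : T} [MonObj R] (U : UnitCof R) (c : ℕ) (X : T) :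
    Nonempty (U.J ⊗ U.cobar.B c X ≅ U.cobar.B (c + 1) X) := by
  induction c generalizing X with
  | zero => exact ⟨Iso.refl _⟩
  | succ c ih => exact ih (U.J ⊗ X)

namespace Jsh

variable {R : T} [MonObj R] {U : UnitCof R} {X M M' : T} {c : ℕ} {k : ℤ}

lemma iso (h : Jsh U X M c k) (e : M' ≅ M) : Jsh U X M' c k := by
  obtain ⟨i⟩ := h
  exact ⟨e ≪≫ i⟩

lemma congr (h : Jsh U X M c k) {c' : ℕ} {k' : ℤ} (hc : c = c') (hk : k = k') :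
    Jsh U X M c' k' := by subst hc hk; exact h

variable (U X) in
lemma self : Jsh U X X 0 0 := ⟨((shiftFunctorZero T ℤ).symm).app X⟩

variable (U X) in
lemma self_shift (k : ℤ) : Jsh U X (X⟦k⟧) 0 k := ⟨Iso.refl _⟩

lemma shift (h : Jsh U X M c k) (l : ℤ) : Jsh U X (M⟦l⟧) c (k + l) := by
  obtain ⟨i⟩ := h
  exact ⟨(shiftFunctor T l).mapIso i ≪≫ ((shiftFunctorAdd T k l).app _).symm⟩

lemma of_shift {l : ℤ} (h : Jsh U X (M⟦l⟧) c k) : Jsh U X M c (k - l) :=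
  ((h.shift (-l)).iso ((shiftShiftNeg M l).symm)).congr rfl (by ring)

lemma tensJ (h : Jsh U X M c k) : Jsh U X (U.J ⊗ M) (c + 1) k := by
  obtain ⟨i⟩ := h
  obtain ⟨j⟩ := exists_J_B U c X
  exact ⟨whiskerLeftIso U.J i ≪≫ tensShift U.J _ k ≪≫ (shiftFunctor T k).mapIso j⟩

lemma tensI (F : UnitFib R) (h : Jsh U X M c k) : Jsh U X (F.I ⊗ M) (c + 1) (k - 1) := by
  obtain ⟨j, -⟩ := F.exists_jIso U
  exact of_shift (h.tensJ.iso ((Vale.Agent.P251.X.tensRIso F.I M).symm ≪≫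
    whiskerRightIso ((sI F.I).symm ≪≫ j) M))

lemma tensIp (F : UnitFib R) (a : ℕ) (h : Jsh U X M c k) :
    Jsh U X (F.Ip a ⊗ M) (a + c) (k - a) := by
  induction a with
  | zero => exact (h.iso (λ_ M)).congr (by omega) (by simp)
  | succ a ih =>
    exact ((ih.tensI F).iso (α_ F.I (F.Ip a) M)).congr (by omega) (by push_cast; ring)

lemma tensK (F : UnitFib R) (a : ℕ) (h : Jsh U X M c k) :
    Jsh U X (F.K a ⊗ M) (a + c) (k - a + 1) :=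
  ((h.tensIp F a).shift 1).iso (Vale.Agent.P251.X.tensRIso (F.Ip a) M)

lemma _root_.Vale.Agent.P257.V4.L.jsh_K (U : UnitCof R) (F : UnitFib R) (a : ℕ) :
    Jsh U (𝟙_ T) (F.K a) a (1 - a) :=
  (((self U (𝟙_ T)).tensK F a).iso (ρ_ _).symm).congr (by omega) (by ring)

end Jsh

section van

variable {R : T} [MonObj R] {U : UnitCof R} (F : UnitFib R) {X : T} {q : ℤ}

/-- (SPJ) -/
def SPJ (U : UnitCof R) (X : T) (q : ℤ) : Prop :=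
  ∀ (a b : ℕ) (k : ℤ), ¬ q ∣ k → Zr ((U.cobar.B a (𝟙_ T))⟦k⟧) (R ⊗ U.cobar.B b X)

/-- (CON) -/
def CONJ (U : UnitCof R) (X : T) (q : ℤ) : Prop :=
  ∀ (s : ℕ) (n : ℤ), n < q * s → Zr ((𝟙_ T)⟦n⟧) (U.cobar.B s X)

lemma zr_of_shift {A N : T} {k m : ℤ} (h : Zr (A⟦k - m⟧) N) : Zr (A⟦k⟧) (N⟦m⟧) :=
  (h.shift m).iso (((shiftFunctorAdd' T (k - m) m k (by ring)).app A).symm)

lemma SPJ.zr (hS : SPJ U X q) {S M : T} {a b : ℕ} {k m : ℤ} (h1 : Jsh U (𝟙_ T) S a k)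
    (h2 : Jsh U X M b m) (h : ¬ q ∣ k - m) : Zr S (R ⊗ M) := by
  obtain ⟨i⟩ := h1
  obtain ⟨j⟩ := h2
  have h3 := zr_of_shift (hS a b (k - m) h)
  exact (h3.iso i.symm).iso_right ((tensShift R _ m).symm ≪≫ whiskerLeftIso R j.symm)

/-- connectivity of `E₁` -/
lemma CONJ.zr_E (hC : CONJ U X q) (hq : 0 ≤ q) {s : ℕ} {n : ℤ} (h : n < q * s) :
    Zr ((𝟙_ T)⟦n⟧) (R ⊗ U.cobar.B s X) := by
  intro f
  have h1 : f ≫ U.cobar.k s X = 0 := hC (s + 1) n (by push_cast; nlinarith) _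
  obtain ⟨g, hg⟩ := cex2 (U.towerTriangle_distinguished s X) f h1
  rw [hg, hC s n h g, zero_comp]

/-- vanishing on the truncations from the vanishing on the layers -/
lemma zr_C {S M : T} (r : ℕ) (h : ∀ j < r, Zr S (R ⊗ (F.Ip j ⊗ M))) : Zr S (F.C r ⊗ M) := by
  induction r with
  | zero =>
    intro f
    have h1 : IsZero (F.C 0 ⊗ M) := (tensorRight M).map_isZero F.isZero_C_zero
    exact h1.eq_of_tgt _ _
  | succ r ih =>
    intro f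
    obtain ⟨g, hg⟩ := cex2 (tensR_dist M (F.s_dist r)) f (ih (fun j hj => h j (by omega)) _)
    have h1 : g ≫ (α_ R (F.Ip r) M).hom = 0 := h r (by omega) _
    have h2 : g = 0 := by rw [← cancel_mono (α_ R (F.Ip r) M).hom, h1, zero_comp]
    rw [hg, h2, zero_comp]

/-- the projection `C (n+1) ⟶ R` is injective -/
lemma inj_C {S M : T} (n : ℕ) (h : ∀ j, 1 ≤ j → j ≤ n → Zr S (R ⊗ (F.Ip j ⊗ M)))
    (z : S ⟶ F.C (n + 1) ⊗ M) (hz : z ≫ F.pr n ▷ M = 0) : z = 0 := by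
  induction n with
  | zero => rwa [← cancel_mono (F.pr 0 ▷ M), zero_comp]
  | succ n ih =>
    have h1 : z ≫ F.s (n + 1) ▷ M = 0 := by
      refine ih (fun j hj hj' => h j hj (by omega)) _ ?_
      rw [Category.assoc, ← comp_whiskerRight, F.s_pr, hz]
    obtain ⟨g, hg⟩ := cex2 (tensR_dist M (F.s_dist (n + 1))) z h1
    have h2 : g ≫ (α_ R (F.Ip (n + 1)) M).hom = 0 := h (n + 1) (by omega) le_rfl _
    have h3 : g = 0 := by rw [← cancel_mono (α_ R (F.Ip (n + 1)) M).hom, h2, zero_comp]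
    rw [hg, h3, zero_comp]

lemma not_dvd_of {q k : ℤ} (r : ℤ) (h : q ∣ k - r) (h0 : 0 < r) (h1 : r < q) : ¬ q ∣ k := by
  intro h2
  have h3 : q ∣ r := (dvd_sub_right h2).1 h
  exact absurd (Int.le_of_dvd h0 h3) (by omega)

variable (n : ℕ)

/-- hypothesis `v1` of (L3) -/
theorem van_a (hS : SPJ U X (n + 1 : ℕ)) (hC : CONJ U X (n + 1 : ℕ)) (hn : 1 ≤ n)
    (f : (𝟙_ T)⟦(1 : ℤ)⟧ ⟶ (F.C (n + 1) ⊗ F.K (n + 1)) ⊗ X) : f = 0 := by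
  have h1 : Zr ((𝟙_ T)⟦(1 : ℤ)⟧) (F.C (n + 1) ⊗ (F.K (n + 1) ⊗ X)) := by
    refine zr_C F _ fun j hj => ?_
    have hM : Jsh U X (F.Ip j ⊗ (F.K (n + 1) ⊗ X)) (j + (n + 1)) (-n - j) :=
      (((Jsh.self U X).tensK F (n + 1)).tensIp F j).congr (by omega) (by push_cast; ring)
    rcases Nat.eq_zero_or_pos j with rfl | hj0
    · obtain ⟨i⟩ := hM
      have h2 : Zr ((𝟙_ T)⟦(1 : ℤ) - (-n - (0 : ℕ))⟧) (R ⊗ U.cobar.B (0 + (n + 1)) X) :=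
        hC.zr_E (by positivity) (by push_cast; nlinarith)
      exact (zr_of_shift h2).iso_right ((tensShift R _ _).symm ≪≫ whiskerLeftIso R i.symm)
    · refine hS.zr (Jsh.self_shift U (𝟙_ T) 1) hM
        (not_dvd_of j ⟨1, by push_cast; ring⟩ (by omega) (by omega))
  have h3 := h1.iso_right (α_ (F.C (n + 1)) (F.K (n + 1)) X).symm
  exact h3 f

/-- hypothesis `v2` of (L3) -/
theorem van_b (hS : SPJ U X (n + 1 : ℕ))
    (f : F.K (n + 1) ⊗ F.K (n + 1) ⟶ (F.C n ⊗ F.K (n + 1)) ⊗ X) : f = 0 := by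
  have h1 : Zr (F.K (n + 1) ⊗ F.K (n + 1)) (F.C n ⊗ (F.K (n + 1) ⊗ X)) := by
    refine zr_C F _ fun j hj => ?_
    refine hS.zr ((jsh_K U F (n + 1)).tensK F (n + 1))
      (((Jsh.self U X).tensK F (n + 1)).tensIp F j)
      (not_dvd_of (j + 1) ⟨-1, by push_cast; ring⟩ (by omega) (by push_cast; omega))
  exact h1.iso_right (α_ (F.C n) (F.K (n + 1)) X).symm f

/-- hypothesis `v1` of (L2) -/
theorem van_c₁ (hS : SPJ U X (n + 1 : ℕ)) (hn : 1 ≤ n)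
    (f : (𝟙_ T)⟦(1 : ℤ)⟧ ⟶ R ⊗ X) : f = 0 :=
  hS.zr (Jsh.self_shift U (𝟙_ T) 1) (Jsh.self U X)
    (not_dvd_of 1 ⟨0, by ring⟩ (by omega) (by push_cast; omega)) f

/-- hypothesis `v2` of (L2) -/
theorem van_c₂ (hS : SPJ U X (n + 1 : ℕ)) (hn : 2 ≤ n)
    (f : F.K (n + 1) ⊗ F.K (n + 1) ⟶ R ⊗ X) : f = 0 :=
  hS.zr ((jsh_K U F (n + 1)).tensK F (n + 1)) (Jsh.self U X)
    (not_dvd_of 2 ⟨-2, by push_cast; ring⟩ (by omega) (by push_cast; omega)) f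

/-- hypothesis of (R1), in the form of `UnitFib.dJ_eq` -/
theorem van_c₃ (hS : SPJ U X (n + 1 : ℕ)) (hn : 1 ≤ n) (f : U.J ⊗ F.I ⟶ R ⊗ X) : f = 0 := by
  have h1 : Jsh U (𝟙_ T) (U.J ⊗ F.I) 2 (-1) :=
    ((((Jsh.self U (𝟙_ T)).tensI F).iso (ρ_ F.I).symm).tensJ).congr (by omega) (by ring)
  exact hS.zr h1 (Jsh.self U X)
    (not_dvd_of n ⟨-1, by push_cast; ring⟩ (by omega) (by push_cast; omega)) f

/-- hypothesis of (R1), in the form of `UnitFib.d_eq` -/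
theorem van_c₄ (hS : SPJ U X (n + 1 : ℕ)) (hn : 1 ≤ n)
    (f : (F.I ⊗ F.I)⟦(1 : ℤ)⟧ ⟶ R ⊗ X) : f = 0 := by
  have h1 : Jsh U (𝟙_ T) ((F.I ⊗ F.I)⟦(1 : ℤ)⟧) 2 (-1) :=
    (((((Jsh.self U (𝟙_ T)).tensI F).iso (ρ_ F.I).symm).tensI F).shift 1).congr
      (by omega) (by ring)
  exact hS.zr h1 (Jsh.self U X)
    (not_dvd_of n ⟨-1, by push_cast; ring⟩ (by omega) (by push_cast; omega)) f

/-- hypothesis `hinj` of (L4) -/
theorem van_d (hS : SPJ U X (n + 1 : ℕ)) {W : T} {t : ℤ} (hW : Jsh U (𝟙_ T) W 0 t)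
    (ht : ((n + 1 : ℕ) : ℤ) ∣ t) (z : W ⟶ F.C (n + 1) ⊗ (U.J ⊗ X)) (hz : z ≫ F.pr n ▷ _ = 0) :
    z = 0 := by
  refine inj_C F n (fun j hj hj' => ?_) z hz
  refine hS.zr hW (((Jsh.self U X).tensJ).tensIp F j)
    (not_dvd_of j ?_ (by omega) (by push_cast; omega))
  have h1 : t - (0 - (j : ℤ)) - j = t := by ring
  rwa [h1]

/-- hypothesis `hf` of (L4) -/
theorem van_e (hS : SPJ U X (n + 1 : ℕ)) (hn : 1 ≤ n) {W : T} {t : ℤ}
    (hW : Jsh U (𝟙_ T) W 0 t) (ht : ((n + 1 : ℕ) : ℤ) ∣ t)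
    (f : W ⟶ (F.K (n + 1) ⊗ F.K (n + 2)) ⊗ (R ⊗ X)) : f = 0 := by
  have h1 : Zr W (R ⊗ (F.K (n + 1) ⊗ (F.K (n + 2) ⊗ X))) := by
    refine hS.zr hW (((Jsh.self U X).tensK F (n + 2)).tensK F (n + 1))
      (not_dvd_of n ?_ (by omega) (by push_cast; omega))
    have h2 : t - (0 - ((n + 2 : ℕ) : ℤ) + 1 - ((n + 1 : ℕ) : ℤ) + 1) - n =
      t + ((n + 1 : ℕ) : ℤ) := by push_cast; ring
    rw [h2]
    exact dvd_add ht (dvd_refl _)
  refine h1.iso_right (whiskerLeftIso R (α_ (F.K (n + 1)) (F.K (n + 2)) X).symm ≪≫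
    (α_ R (F.K (n + 1) ⊗ F.K (n + 2)) X).symm ≪≫
      whiskerRightIso (β_ R (F.K (n + 1) ⊗ F.K (n + 2))) X ≪≫ α_ _ _ _) f

end van

end Vale.Agent.P257.V4.L
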