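import Vale.Agent.P257.V4.L.Adapt4
import Vale.Agent.P257.V4.E.CupD

/-!
# P257, part L (Leibniz rule), file 8: the Leibniz rule in the form of parts E and K
-/

open CategoryTheory MonoidalCategory Limits Pretriangulated MonObj

set_option linter.unusedSectionVars false

universe v u

namespace Vale.Agent.P257.V4.L

open Vale.Agent.P251.T Vale.Agent.P251.M Vale.Agent.P251.S Vale.Agent.P257.V4.E
  Vale.Agent.P257.V4.O

variable {T : Type u} [Category.{v} T] [Preadditive T] [HasZeroObject T] [HasShift T ℤ]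
  [∀ n : ℤ, (shiftFunctor T n).Additive] [Pretriangulated T]
  [MonoidalCategory T] [SymmetricCategory T] [TensorTriangulated T]
  {R : T} [MonObj R] (U : UnitCof R)

/-- The outermost factor in terms of `BB`. -/
lemma oB_eq (b : ℕ) (Y : T) : oB U b Y =
    (BB U.cobar 1 b Y).hom ≫ eqToHom (B_eq U (show 1 + b = b + 1 by omega) Y) := by
  induction b generalizing Y with
  | zero => exact (Category.id_comp _).symm
  | succ b ih => exact ih (U.J ⊗ Y)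

lemma BB_zero_left (b : ℕ) (Y : T) :
    (BB U.cobar 0 b Y).hom ≫ eqToHom (B_eq U (show 0 + b = b by omega) Y) = 𝟙 _ := by
  induction b generalizing Y with
  | zero => exact Category.id_comp _
  | succ b ih => exact ih (U.J ⊗ Y)

lemma whiskerLeft_eqToHom {A B : T} (M : T) (h : A = B) :
    M ◁ eqToHom h = eqToHom (by rw [h]) := by
  subst h
  exact MonoidalCategory.whiskerLeft_id _ _

/-- The product `pE` with a class of filtration one. -/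
lemma pE_one {w₁ w₂ w : ℤ} (h : w₂ + w₁ = w) {b : ℕ} {X₂ X₃ : T}
    (a : (stdEven T).S w₂ ⟶ R ⊗ (U.J ⊗ X₂))
    (x : X₂ ⊗ (stdEven T).S w₁ ⟶ U.cobar.B b X₃) :
    pE U (s := 1) h a x ≫ R ◁ eqToHom (B_eq U (show 1 + b = b + 1 by omega) X₃) =
      ((stdEven T).mu w₂ w₁ w h).inv ≫ a ▷ (stdEven T).S w₁ ≫ (α_ _ _ _).hom ≫
        R ◁ ((α_ U.J X₂ _).hom ≫ U.J ◁ x ≫ oB U b X₃) := by
  unfold pE
  simp only [Category.assoc]
  rw [← MonoidalCategory.whiskerLeft_comp]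
  simp only [Category.assoc]
  rw [← oB_eq]
  have h1 : tB U 1 X₂ ((stdEven T).S w₁) = (α_ U.J X₂ _).hom := Category.id_comp _
  have h2 : U.cobar.Bm 1 x = U.J ◁ x := rfl
  rw [h1, h2]

/-- The product `pE` with a class of filtration zero. -/
lemma pE_zero' {w₁ w₂ w : ℤ} (h : w₂ + w₁ = w) {b : ℕ} {X₂ X₃ : T}
    (a : (stdEven T).S w₂ ⟶ R ⊗ X₂)
    (x : X₂ ⊗ (stdEven T).S w₁ ⟶ U.cobar.B b X₃) :
    pE U (s := 0) h a x ≫ R ◁ eqToHom (B_eq U (show 0 + b = b by omega) X₃) =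
      ((stdEven T).mu w₂ w₁ w h).inv ≫ a ▷ (stdEven T).S w₁ ≫ (α_ _ _ _).hom ≫ R ◁ x := by
  unfold pE
  simp only [Category.assoc]
  rw [← MonoidalCategory.whiskerLeft_comp]
  simp only [Category.assoc]
  rw [BB_zero_left]
  have h1 : tB U 0 X₂ ((stdEven T).S w₁) = 𝟙 _ := rfl
  have h2 : U.cobar.Bm 0 x = x := rfl
  rw [h1, h2]
  congr 5
  exact (Category.id_comp _).trans (Category.comp_id _)

/-- precomposition in `xo` -/
lemma xo_pre (b : ℕ) {X₁ X₂ X₃ : T} (m : X₁ ⊗ X₂ ⟶ X₃) {S S' : T} (g : S' ⟶ S)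
    (o : S ⟶ U.cobar.B b X₁) : xo U b m (g ≫ o) = X₂ ◁ g ≫ xo U b m o := by
  unfold xo
  rw [BraidedCategory.braiding_naturality_right_assoc, comp_whiskerRight_assoc]

variable [IsTriangulated T]

/-- **The Leibniz rule**, in the form of part E. Here `q = n + 1`. -/
theorem leib_final {X : T} {uX : 𝟙_ T ⟶ X} {mX : X ⊗ X ⟶ X} (hmX : uX ▷ X ≫ mX = (λ_ X).hom)
    (n : ℕ) (hn : 2 ≤ n) (hS : SPJ U X (n + 1 : ℕ)) (hC : CONJ U X (n + 1 : ℕ)) (m : X ⊗ X ⟶ X)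
    {wa wo wv wb w : ℤ} (h1 : wa + wo = w) (h2 : wv + wb = w)
    (da : ((n + 1 : ℕ) : ℤ) ∣ 2 * wa) (dv : ((n + 1 : ℕ) : ℤ) ∣ 2 * wv)
    (v : (stdEven T).S wv ⟶ R ⊗ X) (a : (stdEven T).S wa ⟶ R ⊗ (U.J ⊗ X))
    (ha : a ≫ U.cobar.D 1 X = 0) (b : (stdEven T).S wa ⊗ (stdEven T).S wv ⟶ U.J ⊗ X)
    (hb : prd ((α_ U.J X X).hom ≫ U.J ◁ m) a v ≫ μ[R] ▷ (U.J ⊗ X) = b ≫ unitMap R (U.J ⊗ X))
    {l : ℤ} (hm : l + ((n + 2 : ℕ) : ℤ) = 2 * wo) (hl : l + ((1 : ℕ) : ℤ) = 2 * wv)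
    (y : (cpl U X).D (n + 2) l)
    (hy : dT U X (𝟙_ T) hl ((cpl U X).proj l (show 1 ≤ n + 2 by omega) y) =
      (sphE T wv).inv ≫ v ≫ U.ρ ▷ X) :
    ∃ (o' : (stdEven T).S wb ⟶ U.cobar.B (n + 3) X)
      (f : (stdEven T).S w ⟶ R ⊗ U.cobar.B (n + 2) X),
      pE U (s := 1) h1 a (xo U (n + 2) ((β_ X X).hom ≫ m)
          ((sphE T wo).hom ≫ dT U X (𝟙_ T) hm y)) ≫
            R ◁ eqToHom (B_eq U (show 1 + (n + 2) = n + 2 + 1 by omega) X) +
        pE U (s := 0) h2 v (xo U (n + 3) m o') ≫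
          R ◁ eqToHom (B_eq U (show 0 + (n + 3) = n + 2 + 1 by omega) X) =
        f ≫ U.cobar.D (n + 2) X := by
  obtain ⟨F⟩ := exists_unitFib R
  obtain ⟨D⟩ := exists_jData F U
  obtain ⟨φ, hφ1, hφ2⟩ := F.exists_phi (n + 1)
  have hL2 := F.phi_pr uX mX n φ hφ1 hφ2 hmX (van_c₁ n hS (by omega)) (van_c₂ F n hS hn)
  have hL3 := F.exists_deriv uX mX n φ hφ1 hφ2 hmX (van_a F n hS hC (by omega)) (van_b F n hS)
  have hR1 := F.dJ_eq uX mX hmX D.j D.hj (van_c₃ F n hS (by omega))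
  -- the lifts
  obtain ⟨v₀, hv1, hv2⟩ := exists_lift_y D (n + 1) (t := 2 * wv) (t' := 2 * wo)
    (by push_cast at hm hl ⊢; linarith) (by push_cast at hl; linarith) hm hl y
    ((sphE T wv).inv ≫ v) (by rw [hy, Category.assoc])
  have hWa : Jsh U (𝟙_ T) ((stdEven T).S wa) 0 (2 * wa) :=
    (Jsh.self_shift U (𝟙_ T) (2 * wa)).iso (sphE T wa)
  obtain ⟨at', hat⟩ := exists_lift_a D n hS hWa da a ha
  set vt : (stdEven T).S wv ⟶ F.C (n + 2) ⊗ X := (sphE T wv).hom ≫ v₀ with hvt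
  have hvt1 : vt ≫ F.pr (n + 1) ▷ X = v := by
    rw [hvt, Category.assoc, hv1, Iso.hom_inv_id_assoc]
  -- the degree of the product
  have hW : Jsh U (𝟙_ T) ((stdEven T).S wa ⊗ (stdEven T).S wv) 0 (2 * (wa + wv)) :=
    (Jsh.self_shift U (𝟙_ T) (2 * (wa + wv))).iso
      ((stdEven T).mu wa wv (wa + wv) rfl ≪≫ sphE T (wa + wv))
  have hd : ((n + 1 : ℕ) : ℤ) ∣ 2 * (wa + wv) := by
    rw [_root_.mul_add]
    exact dvd_add da dv
  obtain ⟨f₀, z, hfz⟩ := leib_tow D n φ hL2 hL3 hR1 m vt at' b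
    (by rw [hat, hvt1]; exact hb) (fun z hz => van_d F n hS hW hd z hz)
    (fun f => van_e F n hS (by omega) hW hd f)
  rw [hat, hvt1] at hfz
  -- the spheres
  let ι : (stdEven T).S wv ⊗ Sg T (n + 1) ≅ (stdEven T).S wo :=
    whiskerRightIso (sphE T wv) (Sg T (n + 1)) ≪≫ iS (2 * wv) (n + 1) (2 * wo)
      (by push_cast at hm hl ⊢; linarith) ≪≫ (sphE T wo).symm
  have hvt2 : (vt ≫ F.c (n + 2) ▷ X) ▷ (Sg T (n + 1)) ≫ G D (n + 1) X =
      ι.hom ≫ (sphE T wo).hom ≫ dT U X (𝟙_ T) hm y := by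
    have h3 : ι.hom = (sphE T wv).hom ▷ (Sg T (n + 1)) ≫ (iS (2 * wv) (n + 1) (2 * wo)
      (by push_cast at hm hl ⊢; linarith)).hom ≫ (sphE T wo).inv := rfl
    rw [h3, hvt]
    simp only [Category.assoc]
    rw [Iso.inv_hom_id_assoc, comp_whiskerRight (sphE T wv).hom, Category.assoc]
    exact congrArg _ hv2
  rw [hvt2, xo_pre] at hfz
  set y' : (stdEven T).S wo ⟶ U.cobar.B (n + 2) X := (sphE T wo).hom ≫ dT U X (𝟙_ T) hm y with hy'
  set θ : (stdEven T).S w ⟶ ((stdEven T).S wa ⊗ (stdEven T).S wv) ⊗ Sg T (n + 1) :=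
    ((stdEven T).mu wa wo w h1).inv ≫ (stdEven T).S wa ◁ ι.inv ≫ (α_ _ _ _).inv with hθ
  obtain ⟨κ, hκ⟩ := whiskerLeft_surj ((stdEven T).S wv) (((stdEven T).mu wv wb w h2).hom ≫ θ ≫
    (β_ _ _).hom ▷ (Sg T (n + 1)) ≫ (α_ _ _ _).hom)
  clear_value θ
  refine ⟨κ ≫ z, θ ≫ f₀, ?_⟩
  rw [Category.assoc, ← hfz, Preadditive.comp_add, pE_one, pE_zero']
  congr 1
  · have k1 : (U.J ⊗ X) ◁ ι.inv ≫ (α_ U.J X ((stdEven T).S wv ⊗ Sg T (n + 1))).hom ≫
        U.J ◁ (X ◁ ι.hom) = (α_ U.J X ((stdEven T).S wo)).hom := by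
      rw [associator_naturality_right_assoc, ← MonoidalCategory.whiskerLeft_comp,
        ← MonoidalCategory.whiskerLeft_comp, Iso.inv_hom_id, MonoidalCategory.whiskerLeft_id,
        MonoidalCategory.whiskerLeft_id, Category.comp_id]
    rw [hθ, ← k1]
    simp only [Category.assoc, MonoidalCategory.whiskerLeft_comp]
    rw [Iso.inv_hom_id_assoc, whisker_exchange_assoc, associator_naturality_right_assoc]
  · have k2 : θ ≫ (β_ _ _).hom ▷ (Sg T (n + 1)) ≫ (α_ _ _ _).hom =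
        ((stdEven T).mu wv wb w h2).inv ≫ (stdEven T).S wv ◁ κ := by
      rw [hκ, Iso.inv_hom_id_assoc]
    rw [xo_pre, Category.assoc ((β_ _ _).hom ▷ _), reassoc_of% k2, whisker_exchange_assoc,
      associator_naturality_right_assoc, ← MonoidalCategory.whiskerLeft_comp R]

end Vale.Agent.P257.V4.L
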