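import Vale.Agent.P257.V4.L.Leib

/-!
# P257, part L (Leibniz rule), file 5: the user form of the Leibniz rule

`B` is commutative, `v` projects to `vB ⊗ uX` with `vB : W₁ ⟶ B`; the product hypothesis is
`vB · aB = j(b)` and the second summand is `vB · y`.
-/

open CategoryTheory MonoidalCategory Limits Pretriangulated MonObj

set_option linter.unusedSectionVars false

universe v u

namespace Vale.Agent.P257.V4.L

open Vale.Agent.P251.T Vale.Agent.P251.S

section shuffle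

variable {T : Type u} [Category.{v} T] [MonoidalCategory T] [SymmetricCategory T]

/-- `Q ⊗ (I ⊗ X) ≅ I ⊗ (Q ⊗ X)` -/
def exch (I X Q : T) : Q ⊗ (I ⊗ X) ≅ I ⊗ (Q ⊗ X) :=
  (α_ Q I X).symm ≪≫ whiskerRightIso (β_ Q I) X ≪≫ α_ I Q X

@[reassoc]
lemma exch_nat (I X : T) {Q Q' : T} (f : Q ⟶ Q') :
    f ▷ (I ⊗ X) ≫ (exch I X Q').hom = (exch I X Q).hom ≫ I ◁ (f ▷ X) := by
  simp only [exch, Iso.trans_hom, Iso.symm_hom, whiskerRightIso_hom, Category.assoc]
  rw [associator_inv_naturality_left_assoc, ← comp_whiskerRight_assoc,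
    BraidedCategory.braiding_naturality_left, comp_whiskerRight_assoc,
    associator_naturality_middle]

lemma exch_tensor (I X Q P : T) : (exch I X (Q ⊗ P)).hom =
    (α_ Q P (I ⊗ X)).hom ≫ Q ◁ (exch I X P).hom ≫ (twX X I Q P).hom := by
  simp only [exch, twX, Iso.trans_hom, Iso.symm_hom, whiskerRightIso_hom, whiskerLeftIso_hom,
    BraidedCategory.braiding_tensor_left_hom]
  monoidal

/-- `(Q ⊗ (I ⊗ X)) ⊗ P ⟶ Q ⊗ (I ⊗ (P ⊗ X))` -/
def mv (I X Q P : T) : (Q ⊗ (I ⊗ X)) ⊗ P ⟶ Q ⊗ (I ⊗ (P ⊗ X)) :=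
  (α_ Q (I ⊗ X) P).hom ≫ Q ◁ ((α_ I X P).hom ≫ I ◁ (β_ X P).hom)

lemma braid_exch (I X P : T) : (β_ (I ⊗ X) P).hom ≫ (exch I X P).hom =
    (α_ I X P).hom ≫ I ◁ (β_ X P).hom := by
  simp only [exch, Iso.trans_hom, Iso.symm_hom, whiskerRightIso_hom,
    BraidedCategory.braiding_tensor_left_hom, Category.assoc, Iso.hom_inv_id_assoc]
  rw [← comp_whiskerRight_assoc, SymmetricCategory.symmetry, id_whiskerRight, Category.id_comp,
    Iso.inv_hom_id, Category.comp_id]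

lemma mv_eq (I X Q P : T) : mv I X Q P = (β_ (Q ⊗ (I ⊗ X)) P).hom ≫ (α_ P Q (I ⊗ X)).inv ≫
    (β_ P Q).hom ▷ (I ⊗ X) ≫ (α_ Q P (I ⊗ X)).hom ≫ Q ◁ (exch I X P).hom := by
  rw [mv, ← braid_exch, BraidedCategory.braiding_tensor_left_hom Q (I ⊗ X) P]
  simp only [Category.assoc, Iso.hom_inv_id_assoc]
  rw [← comp_whiskerRight_assoc, SymmetricCategory.symmetry, id_whiskerRight, Category.id_comp,
    Iso.inv_hom_id_assoc, MonoidalCategory.whiskerLeft_comp]

@[reassoc]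
lemma mv_twX (I X Q P : T) : mv I X Q P ≫ (twX X I Q P).hom = (β_ (Q ⊗ (I ⊗ X)) P).hom ≫
    (α_ P Q (I ⊗ X)).inv ≫ (β_ P Q).hom ▷ (I ⊗ X) ≫ (exch I X (Q ⊗ P)).hom := by
  rw [mv_eq, exch_tensor]
  simp only [Category.assoc]

section unit

variable {X : T} (uX : 𝟙_ T ⟶ X) (mX : X ⊗ X ⟶ X)

/-- multiplication by the unit from the right -/
def rX : X ⟶ X := (ρ_ X).inv ≫ X ◁ uX ≫ mX

lemma uX_rX (hm : uX ▷ X ≫ mX = (λ_ X).hom) : uX ≫ rX uX mX = uX := by
  unfold rX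
  rw [rightUnitor_inv_naturality_assoc, ← whisker_exchange_assoc, hm, leftUnitor_naturality,
    unitors_equal, Iso.inv_hom_id_assoc]

/-- multiplication by a unital class -/
lemma act_unital {W B : T} (v : W ⟶ B) :
    X ◁ (v ≫ (ρ_ B).inv ≫ B ◁ uX) ≫ act mX B = X ◁ v ≫ (β_ X B).hom ≫ B ◁ rX uX mX := by
  rw [MonoidalCategory.whiskerLeft_comp, Category.assoc]
  congr 1
  unfold act rX
  rw [MonoidalCategory.whiskerLeft_comp, Category.assoc, associator_inv_naturality_right_assoc,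
    whisker_exchange_assoc, associator_naturality_right_assoc]
  have h : X ◁ (ρ_ B).inv ≫ (α_ X B (𝟙_ T)).inv = (ρ_ (X ⊗ B)).inv := by monoidal
  rw [reassoc_of% h, ← rightUnitor_inv_naturality_assoc]
  have h' : (ρ_ (B ⊗ X)).inv ≫ (α_ B X (𝟙_ T)).hom = B ◁ (ρ_ X).inv := by monoidal
  rw [reassoc_of% h', ← MonoidalCategory.whiskerLeft_comp, ← MonoidalCategory.whiskerLeft_comp]

/-- the product with a unital class -/
lemma mulR_unital (I : T) {W₁ W₂ Q B : T} (a : W₂ ⟶ Q ⊗ (I ⊗ X)) (v : W₁ ⟶ B) :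
    (a ⊗ₘ (v ≫ (ρ_ B).inv ≫ B ◁ uX)) ≫ mulR mX I Q B =
      ((a ≫ Q ◁ (I ◁ rX uX mX)) ⊗ₘ v) ≫ mv I X Q B := by
  rw [mulR_eq, act_unital, tensorHom_def, mv, Category.assoc]
  rw [associator_naturality_right_assoc, ← MonoidalCategory.whiskerLeft_comp,
    associator_naturality_right_assoc, ← MonoidalCategory.whiskerLeft_comp,
    comp_whiskerRight_assoc, associator_naturality_middle_assoc,
    ← MonoidalCategory.whiskerLeft_comp, associator_naturality_middle_assoc,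
    ← MonoidalCategory.whiskerLeft_comp, ← whisker_exchange_assoc,
    BraidedCategory.braiding_naturality_left]

end unit

end shuffle

section user

variable {T : Type u} [Category.{v} T] [Preadditive T] [HasZeroObject T] [HasShift T ℤ]
  [∀ n : ℤ, (shiftFunctor T n).Additive] [Pretriangulated T]
  [MonoidalCategory T] [SymmetricCategory T] [TensorTriangulated T] [IsTriangulated T]

namespace UnitFib

variable {B : T} [MonObj B] (F : UnitFib B)

section

variable {X : T} (uX : 𝟙_ T ⟶ X) (mX : X ⊗ X ⟶ X)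

lemma unit_exch (I : T) : unitMap B (I ⊗ X) ≫ (exch I X B).hom = I ◁ unitMap B X := by
  rw [unitMap, Category.assoc, exch_nat, unitMap]
  simp only [exch, Iso.trans_hom, Iso.symm_hom, whiskerRightIso_hom,
    braiding_tensorUnit_left]
  monoidal

/-- the product with a unital class in `E₁` -/
lemma pd_unital [IsCommMonObj B] (I : T) {W₁ W₂ : T} (a : W₂ ⟶ B ⊗ (I ⊗ X)) (v : W₁ ⟶ B)
    (hr : a ≫ B ◁ (I ◁ rX uX mX) = a) :
    pd mX I a (v ≫ (ρ_ B).inv ≫ B ◁ uX) ≫ I ◁ (μ[B] ▷ X) =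
      ((β_ W₂ W₁).hom ≫ (v ⊗ₘ a) ≫ mulMap B (I ⊗ X)) ≫ (exch I X B).hom := by
  rw [pd, sh, ← Category.assoc, mulR_unital, hr]
  simp only [Category.assoc]
  rw [mv_twX_assoc, ← exch_nat, ← comp_whiskerRight_assoc, IsCommMonObj.mul_comm,
    BraidedCategory.braiding_naturality_assoc, mulMap, Category.assoc]

/-- the second summand -/
lemma pd_unital' (I K : T) {W₁ W₂ : T} (w : W₂ ⟶ K ⊗ (I ⊗ X)) (v : W₁ ⟶ B) :
    pd mX I w (v ≫ (ρ_ B).inv ≫ B ◁ uX) ≫ I ◁ ((β_ K B).hom ▷ X) ≫ (twX X I B K).inv =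
      (β_ W₂ W₁).hom ≫ (v ⊗ₘ (w ≫ K ◁ (I ◁ rX uX mX) ≫ (exch I X K).hom)) := by
  rw [← cancel_mono (twX X I B K).hom]
  simp only [Category.assoc, Iso.inv_hom_id, Category.comp_id]
  rw [pd, sh, ← Category.assoc, mulR_unital]
  simp only [Category.assoc]
  rw [mv_twX_assoc, ← exch_nat, ← comp_whiskerRight_assoc, SymmetricCategory.symmetry, id_whiskerRight,
    Category.id_comp, exch_tensor, Iso.inv_hom_id_assoc,
    BraidedCategory.braiding_naturality_assoc, tensorHom_def, tensorHom_def]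
  simp only [Category.assoc, MonoidalCategory.whiskerLeft_comp]

end

end UnitFib

end user

end Vale.Agent.P257.V4.L
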