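import Vale.Agent.P257.V4.L.LeibJ
import Vale.Agent.P257.V4.L.LeibU
import Vale.Agent.P257.V4.E.CupM

/-!
# P257, part L (Leibniz rule): the product hypothesis (HB)

`prd_unital` : the product with a unital class; `hb_of` : if `d v₅ + v a` is zero on `X` (`v` on the
outermost vertex), the product of the classes of `a` and `v` comes from `U.J ⊗ X`.
-/

open CategoryTheory MonoidalCategory Limits Pretriangulated MonObj

set_option linter.unusedSectionVars false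

universe v u

namespace Vale.Agent.P257.V4.L

open Vale.Agent.P251.T Vale.Agent.P251.M Vale.Agent.P251.S Vale.Agent.P257.V4.E

section prd

variable {T : Type u} [Category.{v} T] [Preadditive T] [MonoidalCategory T] [SymmetricCategory T]
  [MonoidalPreadditive T]

lemma prd_unital_aux (A Y B : T) :
    (A ⊗ Y) ◁ (ρ_ B).inv ≫ tensorμ A Y B (𝟙_ T) ≫ (A ⊗ B) ◁ (ρ_ Y).hom =
      (α_ A Y B).hom ≫ A ◁ (β_ Y B).hom ≫ (α_ A B Y).inv := by
  rw [tensorμ]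
  monoidal

lemma whisker_unit_m {X : T} (uX : 𝟙_ T ⟶ X) (mX : X ⊗ X ⟶ X) (J : T) :
    (J ⊗ X) ◁ uX ≫ (α_ J X X).hom ≫ J ◁ mX = (ρ_ (J ⊗ X)).hom ≫ J ◁ rX uX mX := by
  rw [associator_naturality_right_assoc, ← MonoidalCategory.whiskerLeft_comp]
  have h1 : X ◁ uX ≫ mX = (ρ_ X).hom ≫ rX uX mX := by rw [rX, Iso.hom_inv_id_assoc]
  rw [h1, MonoidalCategory.whiskerLeft_comp]
  have h2 : (α_ J X (𝟙_ T)).hom ≫ J ◁ (ρ_ X).hom = (ρ_ (J ⊗ X)).hom := by monoidal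
  rw [reassoc_of% h2]

/-- the product with a unital class -/
lemma prd_unital {X : T} (uX : 𝟙_ T ⟶ X) (mX : X ⊗ X ⟶ X) (J : T) {W₁ W₂ A B : T}
    (x : W₂ ⟶ A ⊗ (J ⊗ X)) (hx : x ≫ A ◁ (J ◁ rX uX mX) = x) (v : W₁ ⟶ B) :
    prd ((α_ J X X).hom ≫ J ◁ mX) x (v ≫ (ρ_ B).inv ≫ B ◁ uX) =
      (x ⊗ₘ v) ≫ (α_ A (J ⊗ X) B).hom ≫ A ◁ (β_ (J ⊗ X) B).hom ≫ (α_ A B (J ⊗ X)).inv := by
  have h1 := tensorμ_natural (𝟙 A) (𝟙 (J ⊗ X)) (𝟙 B) uX
  simp only [id_tensorHom, MonoidalCategory.whiskerLeft_id] at h1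
  have h2 := tensorμ_natural (𝟙 A) (J ◁ rX uX mX) (𝟙 B) (𝟙 (𝟙_ T))
  simp only [id_tensorHom, tensorHom_id, MonoidalCategory.id_whiskerRight] at h2
  rw [← prd_unital_aux]
  conv_rhs => rw [← hx]
  rw [prd, tensorHom_def, tensorHom_def, MonoidalCategory.whiskerLeft_comp,
    MonoidalCategory.whiskerLeft_comp, comp_whiskerRight]
  simp only [Category.assoc]
  rw [reassoc_of% h1, ← MonoidalCategory.whiskerLeft_comp, whisker_unit_m,
    ← whisker_exchange_assoc (A ◁ J ◁ rX uX mX), ← whisker_exchange_assoc (A ◁ J ◁ rX uX mX),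
    reassoc_of% h2, ← MonoidalCategory.whiskerLeft_comp, rightUnitor_naturality]

lemma braid_mul {R : T} [MonObj R] [IsCommMonObj R] (Y : T) :
    ((α_ R Y R).hom ≫ R ◁ (β_ Y R).hom ≫ (α_ R R Y).inv) ≫ μ[R] ▷ Y =
      (β_ (R ⊗ Y) R).hom ≫ mulMap R Y := by
  have h1 : (α_ R Y R).hom ≫ R ◁ (β_ Y R).hom ≫ (α_ R R Y).inv =
      (β_ (R ⊗ Y) R).hom ≫ (α_ R R Y).inv ≫ (β_ R R).hom ▷ Y := by
    rw [BraidedCategory.braiding_tensor_left_hom]
    simp only [Category.assoc, Iso.hom_inv_id_assoc]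
    rw [← comp_whiskerRight, SymmetricCategory.symmetry, id_whiskerRight, Category.comp_id]
  rw [h1, mulMap, Category.assoc, Category.assoc, ← comp_whiskerRight, IsCommMonObj.mul_comm]

end prd

variable {T : Type u} [Category.{v} T] [Preadditive T] [HasZeroObject T] [HasShift T ℤ]
  [∀ n : ℤ, (shiftFunctor T n).Additive] [Pretriangulated T]
  [MonoidalCategory T] [SymmetricCategory T] [TensorTriangulated T] [HasCoproducts.{0} T]

variable {K : CosR} {R : T} [MonObj R] [IsCommMonObj R] (E : RMod K R) (U : UnitCof R)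

/-- **(HB)** -/
theorem hb_of {X : T} {uX : 𝟙_ T ⟶ X} {mX : X ⊗ X ⟶ X} (hm : uX ▷ X ≫ mX = (λ_ X).hom)
    {wa wv w : ℤ} (h : wv + wa = w) {v : K.wt 0 wv} {a : K.wt 1 wa} {v₅ : K.wt 0 w}
    (h₅ : K.d 0 w v₅ + K.mulw h (K.mapw (fun _ => 0) wv v) a ∈ E.kx uX 1 w) :
    prd ((α_ U.J X X).hom ≫ U.J ◁ mX) (E.qX U uX 1 wa a) (E.qX U uX 0 wv v) ≫
        μ[R] ▷ (U.J ⊗ X) =
      (-((β_ ((stdEven T).S wa) ((stdEven T).S wv)).hom ≫ ((stdEven T).mu wv wa w h).hom ≫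
        E.qX U uX 0 w v₅ ≫ U.ρ ▷ X)) ≫ unitMap R (U.J ⊗ X) := by
  have hx : E.qX U uX 1 wa a ≫ R ◁ (U.J ◁ rX uX mX) = E.qX U uX 1 wa a :=
    (E.qX_nat U uX (rX uX mX) 1 wa a).trans (by rw [uX_rX uX mX hm])
  have h1 := prd_unital uX mX U.J (E.qX U uX 1 wa a) hx (E.vB v)
  have h2 : E.qX U uX 0 wv v = E.vB v ≫ (ρ_ R).inv ≫ R ◁ uX := E.qX_zero U uX v
  have h3 : E.qX U uX 1 w (K.mulw h (K.mapw (fun _ => 0) wv v) a) =
      -(E.qX U uX 0 w v₅ ≫ U.ρ ▷ X ≫ unitMap R (U.J ⊗ X)) := by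
    have h4 : E.qX U uX 1 w (K.d 0 w v₅ + K.mulw h (K.mapw (fun _ => 0) wv v) a) = 0 := by
      rw [RMod.qX_apply, RMod.cX_apply, (RMod.mem_kx E).1 h₅, zero_comp, zero_comp]
    rw [map_add, RMod.qX_d] at h4
    exact (neg_eq_of_add_eq_zero_right h4).symm
  have h5 := E.qX_mul U uX h v a
  rw [h2, h1, Category.assoc, braid_mul, BraidedCategory.braiding_naturality_assoc]
  have h6 : (E.vB v ⊗ₘ E.qX U uX 1 wa a) ≫ mulMap R (U.J ⊗ X) =
      ((stdEven T).mu wv wa w h).hom ≫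
        E.qX U uX 1 w (K.mulw h (K.mapw (fun _ => 0) wv v) a) := by
    rw [h5, Iso.hom_inv_id_assoc]
  rw [h6, h3]
  simp only [Preadditive.comp_neg, Preadditive.neg_comp, Category.assoc]

end Vale.Agent.P257.V4.L
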