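import Vale.Agent.P257.V4.L.LeibJ

/-!
# P257, part L (Leibniz rule), file 4: the products of (L4) in the form of the towers

* `br A B Z : A ⊗ (B ⊗ Z) ≅ B ⊗ (A ⊗ Z)`;
* `prd_first`: the first product of (L4) is `a ▷ W₁ ≫ .. R ◁ (J ◁ x_o)`;
* `prd_second`: the second product is `v ▷ W₂ ≫ .. R ◁ x_w`.
-/

open CategoryTheory MonoidalCategory Limits Pretriangulated MonObj

set_option linter.unusedSectionVars false

universe v u

namespace Vale.Agent.P257.V4.L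

open Vale.Agent.P251.T Vale.Agent.P251.S

section br

variable {T : Type u} [Category.{v} T] [MonoidalCategory T] [SymmetricCategory T]

/-- `A ⊗ (B ⊗ Z) ≅ B ⊗ (A ⊗ Z)` -/
def br (A B Z : T) : A ⊗ (B ⊗ Z) ⟶ B ⊗ (A ⊗ Z) :=
  (α_ A B Z).inv ≫ (β_ A B).hom ▷ Z ≫ (α_ B A Z).hom

@[reassoc (attr := simp)]
lemma br_br (A B Z : T) : br A B Z ≫ br B A Z = 𝟙 _ := by
  unfold br
  simp only [Category.assoc, Iso.hom_inv_id_assoc]
  rw [← comp_whiskerRight_assoc, SymmetricCategory.symmetry, id_whiskerRight, Category.id_comp,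
    Iso.inv_hom_id]

instance isIso_br (A B Z : T) : IsIso (br A B Z) := ⟨⟨br B A Z, br_br A B Z, br_br B A Z⟩⟩

@[reassoc]
lemma br_nat₁ {A A' : T} (f : A ⟶ A') (B Z : T) :
    f ▷ (B ⊗ Z) ≫ br A' B Z = br A B Z ≫ B ◁ (f ▷ Z) := by
  unfold br
  rw [associator_inv_naturality_left_assoc, ← comp_whiskerRight_assoc,
    BraidedCategory.braiding_naturality_left, comp_whiskerRight_assoc,
    associator_naturality_middle, Category.assoc, Category.assoc]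

@[reassoc]
lemma br_nat₂ (A : T) {B B' : T} (f : B ⟶ B') (Z : T) :
    A ◁ (f ▷ Z) ≫ br A B' Z = br A B Z ≫ f ▷ (A ⊗ Z) := by
  unfold br
  rw [associator_inv_naturality_middle_assoc, ← comp_whiskerRight_assoc,
    BraidedCategory.braiding_naturality_right, comp_whiskerRight_assoc,
    associator_naturality_left, Category.assoc, Category.assoc]

@[reassoc]
lemma br_nat₃ (A B : T) {Z Z' : T} (f : Z ⟶ Z') :
    A ◁ (B ◁ f) ≫ br A B Z' = br A B Z ≫ B ◁ (A ◁ f) := by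
  unfold br
  rw [associator_inv_naturality_right_assoc, whisker_exchange_assoc,
    associator_naturality_right, Category.assoc, Category.assoc]

/-- moving `C` past `A ⊗ B` -/
@[reassoc]
lemma br_tensor (A B C Z : T) : br (A ⊗ B) C Z ≫ C ◁ (α_ A B Z).hom =
    (α_ A B (C ⊗ Z)).hom ≫ A ◁ br B C Z ≫ br A C (B ⊗ Z) := by
  unfold br
  rw [BraidedCategory.braiding_tensor_left_hom]
  monoidal

/-- `br` and tensoring on the right -/
@[reassoc]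
lemma br_right (A B Z W : T) : br A B Z ▷ W ≫ (α_ B (A ⊗ Z) W).hom ≫ B ◁ (α_ A Z W).hom =
    (α_ A (B ⊗ Z) W).hom ≫ A ◁ (α_ B Z W).hom ≫ br A B (Z ⊗ W) := by
  unfold br
  monoidal

lemma br_eq (A B Z : T) : br A B Z = (β_ A (B ⊗ Z)).hom ≫ (α_ B Z A).hom ≫ B ◁ (β_ Z A).hom := by
  unfold br
  rw [BraidedCategory.braiding_tensor_right_hom]
  simp only [Category.assoc, Iso.inv_hom_id_assoc]
  rw [← MonoidalCategory.whiskerLeft_comp, SymmetricCategory.symmetry,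
    MonoidalCategory.whiskerLeft_id, Category.comp_id]

lemma tensorμ_br (A Y B X : T) : tensorμ A Y B X ≫ (α_ A B (Y ⊗ X)).hom =
    (α_ A Y (B ⊗ X)).hom ≫ A ◁ br Y B X := by
  unfold tensorμ br
  simp only [Category.assoc, MonoidalCategory.whiskerLeft_comp, Iso.inv_hom_id, Category.comp_id]

end br

section prd

variable {T : Type u} [Category.{v} T] [Preadditive T] [MonoidalCategory T] [SymmetricCategory T]
  [MonoidalPreadditive T]

@[reassoc]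
lemma prd_α {W₂ W₁ A A' Y X Z : T} (m : Y ⊗ X ⟶ Z) (x : W₂ ⟶ A ⊗ Y) (y : W₁ ⟶ A' ⊗ X) :
    prd m x y ≫ (α_ A A' Z).hom =
      (x ⊗ₘ y) ≫ (α_ A Y (A' ⊗ X)).hom ≫ A ◁ (br Y A' X ≫ A' ◁ m) := by
  unfold prd
  simp only [Category.assoc]
  rw [associator_naturality_right, ← Category.assoc (tensorμ A Y A' X), tensorμ_br,
    Category.assoc, ← MonoidalCategory.whiskerLeft_comp]

/-- multiplication with `o`, before suspension -/
def x₀ {W₁ K X X' X'' : T} (m : X ⊗ X' ⟶ X'') (o : W₁ ⟶ K ⊗ X') : X ⊗ W₁ ⟶ K ⊗ X'' :=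
  X ◁ o ≫ br X K X' ≫ K ◁ m

/-- The first product. -/
theorem prd_first {W₂ W₁ R J K X X' X'' : T} (m : X ⊗ X' ⟶ X'') (a : W₂ ⟶ R ⊗ (J ⊗ X))
    (o : W₁ ⟶ K ⊗ X') :
    prd ((α_ J X X').hom ≫ J ◁ m) a o ≫ (α_ R K (J ⊗ X'')).hom ≫ R ◁ br K J X'' =
      a ▷ W₁ ≫ (α_ R (J ⊗ X) W₁).hom ≫ R ◁ ((α_ J X W₁).hom ≫ J ◁ x₀ m o) := by
  have h1 : br (J ⊗ X) K X' ≫ K ◁ ((α_ J X X').hom ≫ J ◁ m) ≫ br K J X'' =
      (α_ J X (K ⊗ X')).hom ≫ J ◁ (br X K X' ≫ K ◁ m) := by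
    rw [MonoidalCategory.whiskerLeft_comp, Category.assoc, br_tensor_assoc, br_nat₃,
      br_br_assoc, MonoidalCategory.whiskerLeft_comp]
  rw [prd_α_assoc, ← MonoidalCategory.whiskerLeft_comp, Category.assoc, h1, tensorHom_def,
    Category.assoc, associator_naturality_right_assoc, ← MonoidalCategory.whiskerLeft_comp,
    associator_naturality_right_assoc, ← MonoidalCategory.whiskerLeft_comp]
  rfl

/-- multiplication with `z`, in the second product -/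
def x₁ {W₂ K X X' X'' J : T} (m : X ⊗ X' ⟶ X'') (w : W₂ ⟶ J ⊗ (K ⊗ X)) :
    X' ⊗ W₂ ⟶ J ⊗ (K ⊗ X'') :=
  (β_ X' W₂).hom ≫ w ▷ X' ≫ (α_ J (K ⊗ X) X').hom ≫ J ◁ ((α_ K X X').hom ≫ K ◁ m)

/-- The second product. -/
theorem prd_second {W₂ W₁ R J K X X' X'' : T} (m : X ⊗ X' ⟶ X'') (w : W₂ ⟶ K ⊗ (J ⊗ X))
    (y : W₁ ⟶ R ⊗ X') :
    prd ((α_ J X X').hom ≫ J ◁ m) w y ≫ (β_ K R).hom ▷ (J ⊗ X'') ≫
        (α_ R K (J ⊗ X'')).hom ≫ R ◁ br K J X'' =
      (β_ W₂ W₁).hom ≫ y ▷ W₂ ≫ (α_ R X' W₂).hom ≫ R ◁ x₁ m (w ≫ br K J X) := by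
  have h0 : ∀ Z : T, (β_ K R).hom ▷ Z ≫ (α_ R K Z).hom = (α_ K R Z).hom ≫ br K R Z := by
    intro Z
    unfold br
    rw [Iso.hom_inv_id_assoc]
  have h1 : (α_ K (J ⊗ X) (R ⊗ X')).hom ≫ K ◁ (br (J ⊗ X) R X' ≫
      R ◁ ((α_ J X X').hom ≫ J ◁ m)) ≫ br K R (J ⊗ X'') =
      br (K ⊗ (J ⊗ X)) R X' ≫ R ◁ ((α_ K (J ⊗ X) X').hom ≫ K ◁ ((α_ J X X').hom ≫ J ◁ m)) := by
    rw [MonoidalCategory.whiskerLeft_comp, Category.assoc, br_nat₃, ← br_tensor_assoc,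
      ← MonoidalCategory.whiskerLeft_comp]
  have h2 : (w ⊗ₘ y) ≫ br (K ⊗ (J ⊗ X)) R X' = (β_ W₂ W₁).hom ≫ y ▷ W₂ ≫ (α_ R X' W₂).hom ≫
      R ◁ ((β_ X' W₂).hom ≫ w ▷ X') := by
    rw [br_eq, ← Category.assoc, BraidedCategory.braiding_naturality, Category.assoc,
      tensorHom_def, Category.assoc, associator_naturality_right_assoc,
      ← MonoidalCategory.whiskerLeft_comp, BraidedCategory.braiding_naturality_right]
  have h3 : w ▷ X' ≫ (α_ K (J ⊗ X) X').hom ≫ K ◁ ((α_ J X X').hom ≫ J ◁ m) ≫ br K J X'' =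
      (w ≫ br K J X) ▷ X' ≫ (α_ J (K ⊗ X) X').hom ≫ J ◁ ((α_ K X X').hom ≫ K ◁ m) := by
    rw [MonoidalCategory.whiskerLeft_comp K, Category.assoc, br_nat₃, comp_whiskerRight,
      MonoidalCategory.whiskerLeft_comp J, Category.assoc, br_right_assoc]
  rw [← Category.assoc ((β_ K R).hom ▷ _), h0, Category.assoc, prd_α_assoc, reassoc_of% h1,
    reassoc_of% h2]
  simp only [← MonoidalCategory.whiskerLeft_comp, Category.assoc]
  rw [h3]
  rfl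

end prd

end Vale.Agent.P257.V4.L
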