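import Vale.Agent.P257.V4.L.Adapt1
import Vale.Agent.P257.V4.E.TenR

/-!
# P257, part L (Leibniz rule), file 5: the suspended truncated towers

`S = 𝟙⟦1⟧`.

* `oB U s Y : J ⊗ B s Y ⟶ B (s+1) Y`, the outermost factor;
* `cr M Σ W : (M ⊗ Σ) ⊗ W ⟶ (M ⊗ W) ⊗ Σ`;
* `stepG`: from `g : Z₀ ⊗ Σ ⟶ Z` to `(I ⊗ Z₀) ⊗ (Σ ⊗ S) ⟶ J ⊗ Z`;
* `Sg r`: the `r`-sphere `((𝟙 ⊗ S) ⊗ S) ..`; `F.G r Y : (K (r+1) ⊗ Y) ⊗ Sg r ⟶ B (r+1) Y`, an
  isomorphism, natural (`G_nat`), compatible with right tensoring (`G_tB`) and with the stage maps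
  (`G_bd`).
-/

open CategoryTheory MonoidalCategory Limits Pretriangulated MonObj

set_option linter.unusedSectionVars false

universe v u

namespace Vale.Agent.P257.V4.L

open Vale.Agent.P251.T Vale.Agent.P251.S Vale.Agent.P257.V4.E

section oB

variable {T : Type u} [Category.{v} T] [Preadditive T] [HasZeroObject T] [HasShift T ℤ]
  [∀ n : ℤ, (shiftFunctor T n).Additive] [Pretriangulated T]
  [MonoidalCategory T] [SymmetricCategory T] [TensorTriangulated T]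
  {R : T} [MonObj R] (U : UnitCof R)

/-- The outermost factor of `B (s+1) Y`. -/
def oB : ∀ (s : ℕ) (Y : T), U.J ⊗ U.cobar.B s Y ⟶ U.cobar.B (s + 1) Y
  | 0, _ => 𝟙 _
  | s + 1, Y => oB s (U.J ⊗ Y)

lemma oB_zero (Y : T) : oB U 0 Y = 𝟙 _ := rfl

lemma oB_succ (s : ℕ) (Y : T) : oB U (s + 1) Y = oB U s (U.J ⊗ Y) := rfl

instance isIso_oB (s : ℕ) (Y : T) : IsIso (oB U s Y) := by
  induction s generalizing Y with
  | zero => exact inferInstanceAs (IsIso (𝟙 _))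
  | succ s ih => exact ih (U.J ⊗ Y)

@[reassoc]
lemma oB_nat (s : ℕ) {Y Y' : T} (f : Y ⟶ Y') :
    U.J ◁ U.cobar.Bm s f ≫ oB U s Y' = oB U s Y ≫ U.cobar.Bm (s + 1) f := by
  induction s generalizing Y Y' with
  | zero => exact (Category.comp_id _).trans (Category.id_comp _).symm
  | succ s ih => exact ih (U.J ◁ f)

@[reassoc]
lemma oB_bd (s : ℕ) (Y : T) : oB U s Y ≫ U.bd s Y = U.bdry (U.cobar.B s Y) := by
  induction s generalizing Y with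
  | zero => exact Category.id_comp _
  | succ s ih => exact ih (U.J ⊗ Y)

@[reassoc]
lemma ρ_oB (s : ℕ) (Y : T) : U.ρ ▷ (U.cobar.B s Y) ≫ oB U s Y = U.cobar.k s Y := by
  induction s generalizing Y with
  | zero => exact Category.comp_id _
  | succ s ih => exact ih (U.J ⊗ Y)

@[reassoc]
lemma oB_tB (s : ℕ) (Y W : T) : oB U s Y ▷ W ≫ tB U (s + 1) Y W =
    (α_ U.J (U.cobar.B s Y) W).hom ≫ U.J ◁ tB U s Y W ≫ oB U s (Y ⊗ W) := by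
  induction s generalizing Y with
  | zero =>
    change 𝟙 (U.J ⊗ Y) ▷ W ≫ 𝟙 _ ≫ (α_ U.J Y W).hom = (α_ U.J Y W).hom ≫ U.J ◁ 𝟙 (Y ⊗ W) ≫ 𝟙 _
    simp
  | succ s ih =>
    have h1 := ih (U.J ⊗ Y)
    have h2 := oB_nat U s (α_ U.J Y W).hom
    rw [oB_succ, tB_succ U (s + 1)]
    change oB U s (U.J ⊗ Y) ▷ W ≫ tB U (s + 1) (U.J ⊗ Y) W ≫ U.cobar.Bm (s + 1) (α_ U.J Y W).hom =
      (α_ U.J (U.cobar.B s (U.J ⊗ Y)) W).hom ≫ U.J ◁ (tB U s (U.J ⊗ Y) W ≫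
        U.cobar.Bm s (α_ U.J Y W).hom) ≫ oB U s (U.J ⊗ (Y ⊗ W))
    rw [reassoc_of% h1, MonoidalCategory.whiskerLeft_comp, Category.assoc]
    congr 2
    exact h2.symm

end oB

section cr

variable {T : Type u} [Category.{v} T] [MonoidalCategory T] [SymmetricCategory T]

/-- `(M ⊗ Σ) ⊗ W ⟶ (M ⊗ W) ⊗ Σ` -/
def cr (M P W : T) : (M ⊗ P) ⊗ W ⟶ (M ⊗ W) ⊗ P :=
  (α_ M P W).hom ≫ M ◁ (β_ P W).hom ≫ (α_ M W P).inv

instance isIso_cr (M P W : T) : IsIso (cr M P W) := by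
  unfold cr; infer_instance

@[reassoc]
lemma cr_nat {M M' : T} (f : M ⟶ M') (P W : T) :
    (f ▷ P) ▷ W ≫ cr M' P W = cr M P W ≫ (f ▷ W) ▷ P := by
  unfold cr
  rw [associator_naturality_left_assoc, ← whisker_exchange_assoc, associator_inv_naturality_left,
    Category.assoc, Category.assoc]

@[reassoc]
lemma cr_left (A M P W : T) :
    cr (A ⊗ M) P W ≫ (α_ A M W).hom ▷ P ≫ (α_ A (M ⊗ W) P).hom =
      (α_ A M P).hom ▷ W ≫ (α_ A (M ⊗ P) W).hom ≫ A ◁ cr M P W := by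
  unfold cr
  monoidal

@[reassoc]
lemma cr_right (M P S W : T) :
    (α_ M P S).inv ▷ W ≫ cr (M ⊗ P) S W ≫ cr M P W ▷ S =
      cr M (P ⊗ S) W ≫ (α_ (M ⊗ W) P S).inv := by
  unfold cr
  rw [BraidedCategory.braiding_tensor_left_hom]
  monoidal

@[reassoc]
lemma cr_β (M S W : T) : cr M S W ≫ (β_ (M ⊗ W) S).hom = (β_ M S).hom ▷ W ≫ (α_ S M W).hom := by
  unfold cr
  rw [BraidedCategory.braiding_tensor_left_hom]
  simp only [Category.assoc, Iso.inv_hom_id_assoc]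
  rw [← MonoidalCategory.whiskerLeft_comp_assoc, SymmetricCategory.symmetry,
    MonoidalCategory.whiskerLeft_id, Category.id_comp, Iso.hom_inv_id_assoc]

/-- moving `W` past `W₁ ⊗ Σ` -/
@[reassoc]
lemma β_cr (W W₁ P : T) : (β_ W (W₁ ⊗ P)).hom ≫ cr W₁ P W =
    (α_ W W₁ P).inv ≫ (β_ W W₁).hom ▷ P := by
  unfold cr
  rw [BraidedCategory.braiding_tensor_right_hom]
  simp only [Category.assoc, Iso.inv_hom_id_assoc]
  rw [← MonoidalCategory.whiskerLeft_comp_assoc, SymmetricCategory.symmetry,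
    MonoidalCategory.whiskerLeft_id, Category.id_comp, Iso.hom_inv_id, Category.comp_id]

end cr

section step

variable {T : Type u} [Category.{v} T] [MonoidalCategory T] [SymmetricCategory T]
  {S I J : T} (j : S ⊗ I ⟶ J)

/-- `(I ⊗ Z₀) ⊗ (Σ ⊗ S) ⟶ J ⊗ Z` -/
def stepG {Z₀ Z P : T} (g : Z₀ ⊗ P ⟶ Z) : (I ⊗ Z₀) ⊗ (P ⊗ S) ⟶ J ⊗ Z :=
  (α_ (I ⊗ Z₀) P S).inv ≫ ((α_ I Z₀ P).hom ≫ I ◁ g) ▷ S ≫ (β_ (I ⊗ Z) S).hom ≫
    (α_ S I Z).inv ≫ j ▷ Z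

instance isIso_stepG {Z₀ Z P : T} (g : Z₀ ⊗ P ⟶ Z) [IsIso j] [IsIso g] : IsIso (stepG j g) := by
  unfold stepG; infer_instance

lemma stepG_nat {Z₀ Z Z₀' Z' P : T} (g : Z₀ ⊗ P ⟶ Z) (g' : Z₀' ⊗ P ⟶ Z') (h₀ : Z₀ ⟶ Z₀')
    (h : Z ⟶ Z') (e : h₀ ▷ P ≫ g' = g ≫ h) :
    (I ◁ h₀) ▷ (P ⊗ S) ≫ stepG j g' = stepG j g ≫ J ◁ h := by
  unfold stepG
  rw [associator_inv_naturality_left_assoc]
  simp only [Category.assoc]
  rw [← whisker_exchange, ← associator_inv_naturality_right_assoc,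
    ← BraidedCategory.braiding_naturality_left_assoc]
  congr 1
  rw [← comp_whiskerRight_assoc, ← comp_whiskerRight_assoc]
  congr 2
  rw [associator_naturality_middle_assoc, ← MonoidalCategory.whiskerLeft_comp, e, Category.assoc,
    ← MonoidalCategory.whiskerLeft_comp]

lemma stepG_right {Z₀ Z Z₀' Z' P W : T} (g : Z₀ ⊗ P ⟶ Z) (g' : Z₀' ⊗ P ⟶ Z')
    (t₀ : Z₀ ⊗ W ⟶ Z₀') (t : Z ⊗ W ⟶ Z') (e : g ▷ W ≫ t = cr Z₀ P W ≫ t₀ ▷ P ≫ g') :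
    stepG j g ▷ W ≫ (α_ J Z W).hom ≫ J ◁ t =
      cr (I ⊗ Z₀) (P ⊗ S) W ≫ ((α_ I Z₀ W).hom ≫ I ◁ t₀) ▷ (P ⊗ S) ≫ stepG j g' := by
  have h1 : cr (I ⊗ Z₀) P W ≫ ((α_ I Z₀ W).hom ≫ I ◁ t₀) ▷ P ≫ (α_ I Z₀' P).hom ≫ I ◁ g' =
      ((α_ I Z₀ P).hom ≫ I ◁ g) ▷ W ≫ (α_ I Z W).hom ≫ I ◁ t := by
    rw [comp_whiskerRight, Category.assoc, associator_naturality_middle_assoc,
      ← MonoidalCategory.whiskerLeft_comp, cr_left_assoc, ← MonoidalCategory.whiskerLeft_comp, ← e,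
      comp_whiskerRight, Category.assoc, associator_naturality_middle_assoc,
      MonoidalCategory.whiskerLeft_comp]
  have h2 : ((β_ (I ⊗ Z) S).hom ≫ (α_ S I Z).inv ≫ j ▷ Z) ▷ W ≫ (α_ J Z W).hom ≫ J ◁ t =
      cr (I ⊗ Z) S W ≫ ((α_ I Z W).hom ≫ I ◁ t) ▷ S ≫ (β_ (I ⊗ Z') S).hom ≫ (α_ S I Z').inv ≫
        j ▷ Z' := by
    rw [BraidedCategory.braiding_naturality_left_assoc, cr_β_assoc,
      MonoidalCategory.whiskerLeft_comp, Category.assoc, associator_inv_naturality_right_assoc,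
      whisker_exchange, comp_whiskerRight, comp_whiskerRight]
    simp only [Category.assoc]
    rw [associator_naturality_left_assoc]
    monoidal
  unfold stepG
  rw [associator_inv_naturality_left_assoc, ← cr_right_assoc, ← comp_whiskerRight_assoc,
    ← comp_whiskerRight_assoc]
  simp only [Category.assoc]
  rw [h1]
  have h3 : (((α_ I Z₀ P).hom ≫ I ◁ g) ▷ W ≫ (α_ I Z W).hom ≫ I ◁ t) ▷ S =
      (((α_ I Z₀ P).hom ≫ I ◁ g) ▷ W) ▷ S ≫ ((α_ I Z W).hom ≫ I ◁ t) ▷ S := by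
    rw [← comp_whiskerRight]
  rw [h3, Category.assoc, ← cr_nat_assoc, ← h2]
  simp only [comp_whiskerRight, Category.assoc]

end step

section G

variable {T : Type u} [Category.{v} T] [Preadditive T] [HasZeroObject T] [HasShift T ℤ]
  [∀ n : ℤ, (shiftFunctor T n).Additive] [Pretriangulated T]
  [MonoidalCategory T] [SymmetricCategory T] [TensorTriangulated T] [IsTriangulated T]
  {R : T} [MonObj R]

/-- Identification of the tower of `I` with the landed tower. -/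
structure JData (F : UnitFib R) (U : UnitCof R) where
  /-- `S¹ ⊗ I ≅ J` -/
  j : ((𝟙_ T)⟦(1 : ℤ)⟧) ⊗ F.I ≅ U.J
  hj : j.hom ≫ U.δ = ((𝟙_ T)⟦(1 : ℤ)⟧) ◁ F.i ≫ (ρ_ _).hom
  /-- `K 1 ≅ J` -/
  j₁ : F.K 1 ≅ U.J
  hj₁ : F.c 1 ≫ j₁.hom = F.pr 0 ≫ U.ρ

theorem exists_jData (F : UnitFib R) (U : UnitCof R) : Nonempty (JData F U) := by
  obtain ⟨j, hj⟩ := F.exists_jIso U
  obtain ⟨z, hz1, hz2⟩ := Vale.Agent.P251.X.tr3 (F.tri_rot 1) U.dist (𝟙 _) (F.pr 0) (by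
    rw [Category.id_comp]
    exact F.u_pr 0)
  have hiso : IsIso z := by
    let φ : Triangle.mk (F.u 1) (F.c 1) (-((F.ip 1)⟦(1 : ℤ)⟧')) ⟶ Triangle.mk η[R] U.ρ U.δ :=
      { hom₁ := 𝟙 _
        hom₂ := F.pr 0
        hom₃ := z
        comm₁ := (F.u_pr 0).trans (Category.id_comp _).symm
        comm₂ := hz1
        comm₃ := hz2 }
    exact isIso₃_of_isIso₁₂ φ (F.tri_rot 1) U.dist (inferInstanceAs (IsIso (𝟙 _)))
      (inferInstanceAs (IsIso (F.pr 0)))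
  exact ⟨⟨j, hj, asIso z, hz1⟩⟩

/-- The `r`-sphere. -/
@[reducible] noncomputable def Sg (T : Type u) [Category.{v} T] [Preadditive T] [HasZeroObject T] [HasShift T ℤ]
    [∀ n : ℤ, (shiftFunctor T n).Additive] [Pretriangulated T] [MonoidalCategory T] : ℕ → T
  | 0 => 𝟙_ T
  | r + 1 => Sg T r ⊗ ((𝟙_ T)⟦(1 : ℤ)⟧)

variable {F : UnitFib R} {U : UnitCof R}

lemma stepG_bdry (D : JData F U) {Z₀ Z P : T} (g : Z₀ ⊗ P ⟶ Z) :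
    stepG D.j.hom g ≫ U.bdry Z = F.d Z₀ ▷ (P ⊗ ((𝟙_ T)⟦(1 : ℤ)⟧)) ≫ (α_ Z₀ P _).inv ≫
      g ▷ ((𝟙_ T)⟦(1 : ℤ)⟧) ≫ (TensorTriangulated.e Z).hom := by
  have h1 : (β_ (F.I ⊗ Z) ((𝟙_ T)⟦(1 : ℤ)⟧)).hom ≫ (α_ ((𝟙_ T)⟦(1 : ℤ)⟧) F.I Z).inv ≫
      D.j.hom ▷ Z ≫ U.bdry Z = F.d Z ▷ ((𝟙_ T)⟦(1 : ℤ)⟧) ≫ (TensorTriangulated.e Z).hom := by
    have h2 : (α_ ((𝟙_ T)⟦(1 : ℤ)⟧) F.I Z).inv ≫ (D.j.hom ≫ U.δ) ▷ Z =
        ((𝟙_ T)⟦(1 : ℤ)⟧) ◁ F.d Z := by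
      rw [D.hj, comp_whiskerRight, ← associator_inv_naturality_middle_assoc]
      unfold UnitFib.d
      rw [MonoidalCategory.whiskerLeft_comp]
      monoidal
    rw [U.bdry_eq, ← comp_whiskerRight_assoc, reassoc_of% h2, sOne,
      ← BraidedCategory.braiding_naturality_left_assoc, SymmetricCategory.symmetry_assoc]
  unfold stepG
  simp only [Category.assoc]
  rw [h1, ← comp_whiskerRight_assoc, Category.assoc, F.d_nat, ← Category.assoc (α_ F.I Z₀ P).hom,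
    ← F.d_whisker, comp_whiskerRight, Category.assoc, ← associator_inv_naturality_left_assoc]

variable (D : JData F U)

/-- `K (r+2) ⊗ Y ≅ I ⊗ (K (r+1) ⊗ Y)` -/
noncomputable def KI (F : UnitFib R) (r : ℕ) (Y : T) :
    F.K (r + 2) ⊗ Y ≅ F.I ⊗ (F.K (r + 1) ⊗ Y) :=
  whiskerRightIso (F.shK (r + 1)).symm Y ≪≫ α_ _ _ _

/-- `(K (r+1) ⊗ Y) ⊗ Sg r ⟶ B (r+1) Y` -/
noncomputable def G : ∀ (r : ℕ) (Y : T), (F.K (r + 1) ⊗ Y) ⊗ Sg T r ⟶ U.cobar.B (r + 1) Y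
  | 0, Y => (ρ_ _).hom ≫ D.j₁.hom ▷ Y
  | r + 1, Y => (KI F r Y).hom ▷ (Sg T (r + 1)) ≫ stepG D.j.hom (G r Y) ≫ oB U (r + 1) Y

lemma G_zero (Y : T) : G D 0 Y = (ρ_ _).hom ≫ D.j₁.hom ▷ Y := rfl

lemma G_succ (r : ℕ) (Y : T) : G D (r + 1) Y =
    (KI F r Y).hom ▷ (Sg T (r + 1)) ≫ stepG D.j.hom (G D r Y) ≫ oB U (r + 1) Y := rfl

instance isIso_G (r : ℕ) (Y : T) : IsIso (G D r Y) := by
  induction r with
  | zero => exact inferInstanceAs (IsIso ((ρ_ (F.K 1 ⊗ Y)).hom ≫ D.j₁.hom ▷ Y))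
  | succ r ih =>
    have h1 : IsIso (stepG D.j.hom (G D r Y)) := inferInstance
    have h2 : IsIso ((KI F r Y).hom ▷ (Sg T r ⊗ ((𝟙_ T)⟦(1 : ℤ)⟧))) := inferInstance
    have h3 : IsIso (oB U (r + 1) Y) := inferInstance
    have h4 := @IsIso.comp_isIso _ _ _ _ _ _ _ h1 h3
    exact @IsIso.comp_isIso _ _ _ _ _ _ _ h2 h4

lemma G_nat (r : ℕ) {Y Y' : T} (f : Y ⟶ Y') :
    (F.K (r + 1) ◁ f) ▷ (Sg T r) ≫ G D r Y' = G D r Y ≫ U.cobar.Bm (r + 1) f := by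
  induction r with
  | zero =>
    rw [G_zero, G_zero]
    change (F.K 1 ◁ f) ▷ (𝟙_ T) ≫ (ρ_ _).hom ≫ D.j₁.hom ▷ Y' =
      ((ρ_ _).hom ≫ D.j₁.hom ▷ Y) ≫ U.J ◁ f
    rw [rightUnitor_naturality_assoc, whisker_exchange, Category.assoc]
  | succ r ih =>
    have h1 : F.K (r + 2) ◁ f ≫ (KI F r Y').hom = (KI F r Y).hom ≫ F.I ◁ (F.K (r + 1) ◁ f) := by
      change F.K (r + 2) ◁ f ≫ (F.shK (r + 1)).inv ▷ Y' ≫ (α_ _ _ _).hom =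
        ((F.shK (r + 1)).inv ▷ Y ≫ (α_ _ _ _).hom) ≫ _
      rw [whisker_exchange_assoc, associator_naturality_right, Category.assoc]
    have h2 := stepG_nat D.j.hom (G D r Y) (G D r Y') (F.K (r + 1) ◁ f)
      (U.cobar.Bm (r + 1) f) ih
    rw [G_succ, G_succ, ← comp_whiskerRight_assoc, h1, comp_whiskerRight, Category.assoc]
    change _ ≫ (F.I ◁ (F.K (r + 1) ◁ f)) ▷ (Sg T r ⊗ ((𝟙_ T)⟦(1 : ℤ)⟧)) ≫ _ ≫ _ = _
    rw [reassoc_of% h2, oB_nat, Category.assoc, Category.assoc]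

lemma KI_right (r : ℕ) (Y W : T) : (KI F r Y).hom ▷ W ≫ (α_ _ _ _).hom ≫
    F.I ◁ (α_ (F.K (r + 1)) Y W).hom = (α_ (F.K (r + 2)) Y W).hom ≫ (KI F r (Y ⊗ W)).hom := by
  change ((F.shK (r + 1)).inv ▷ Y ≫ (α_ _ _ _).hom) ▷ W ≫ (α_ _ _ _).hom ≫ _ =
    _ ≫ (F.shK (r + 1)).inv ▷ (Y ⊗ W) ≫ (α_ _ _ _).hom
  rw [comp_whiskerRight, Category.assoc, ← associator_naturality_left_assoc]
  congr 1
  monoidal

lemma KI_d (r : ℕ) (Y : T) : (KI F r Y).hom ≫ F.d (F.K (r + 1) ⊗ Y) = F.stK (r + 1) ▷ Y := by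
  change ((F.shK (r + 1)).inv ▷ Y ≫ (α_ _ _ _).hom) ≫ _ = _
  rw [Category.assoc, ← F.d_whisker, ← comp_whiskerRight, ← F.stK_eq]

omit [Preadditive T] [HasZeroObject T] [HasShift T ℤ] [∀ n : ℤ, (shiftFunctor T n).Additive]
  [Pretriangulated T] [TensorTriangulated T] [IsTriangulated T] in
lemma cr_unit (M W : T) : cr M (𝟙_ T) W ≫ (ρ_ (M ⊗ W)).hom = (ρ_ M).hom ▷ W := by
  unfold cr
  rw [braiding_tensorUnit_left]
  monoidal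

lemma G_tB (r : ℕ) (Y W : T) : G D r Y ▷ W ≫ tB U (r + 1) Y W =
    cr (F.K (r + 1) ⊗ Y) (Sg T r) W ≫ (α_ (F.K (r + 1)) Y W).hom ▷ (Sg T r) ≫
      G D r (Y ⊗ W) := by
  induction r with
  | zero =>
    change ((ρ_ (F.K 1 ⊗ Y)).hom ≫ D.j₁.hom ▷ Y) ▷ W ≫ 𝟙 _ ≫ (α_ U.J Y W).hom =
      cr (F.K 1 ⊗ Y) (𝟙_ T) W ≫ (α_ (F.K 1) Y W).hom ▷ (𝟙_ T) ≫
        (ρ_ (F.K 1 ⊗ (Y ⊗ W))).hom ≫ D.j₁.hom ▷ (Y ⊗ W)
    rw [Category.id_comp, rightUnitor_naturality_assoc, reassoc_of% (cr_unit (F.K 1 ⊗ Y) W),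
      comp_whiskerRight, Category.assoc, associator_naturality_left]
  | succ r ih =>
    have h1 := stepG_right D.j.hom (G D r Y) (G D r (Y ⊗ W)) (α_ (F.K (r + 1)) Y W).hom
      (tB U (r + 1) Y W) ih
    rw [G_succ, G_succ, comp_whiskerRight, comp_whiskerRight, Category.assoc, Category.assoc,
      oB_tB, reassoc_of% h1]
    change ((KI F r Y).hom ▷ (Sg T r ⊗ ((𝟙_ T)⟦(1 : ℤ)⟧))) ▷ W ≫ _ = _
    rw [cr_nat_assoc, ← comp_whiskerRight_assoc, KI_right, comp_whiskerRight_assoc]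

lemma G_bd (r : ℕ) (Y : T) : G D (r + 1) Y ≫ U.bd (r + 1) Y =
    (F.stK (r + 1) ▷ Y) ▷ (Sg T r ⊗ ((𝟙_ T)⟦(1 : ℤ)⟧)) ≫ (α_ _ _ _).inv ≫
      G D r Y ▷ ((𝟙_ T)⟦(1 : ℤ)⟧) ≫ (TensorTriangulated.e (U.cobar.B (r + 1) Y)).hom := by
  rw [G_succ, Category.assoc, Category.assoc, oB_bd, stepG_bdry, ← comp_whiskerRight_assoc, KI_d]

end G

end Vale.Agent.P257.V4.L
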