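import Vale.Agent.P257.V4.L.Adapt2

/-!
# P257, part L (Leibniz rule), file 6: (L4) on the landed tower

* `x₀_susp`, `x₁_susp`: the multiplications of (L4) become `xo` after suspension;
* `UnitFib.leib_tow`: the Leibniz rule with the products of part E.
-/

open CategoryTheory MonoidalCategory Limits Pretriangulated MonObj

set_option linter.unusedSectionVars false

universe v u

namespace Vale.Agent.P257.V4.L

open Vale.Agent.P251.T Vale.Agent.P251.S Vale.Agent.P257.V4.E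

variable {T : Type u} [Category.{v} T] [Preadditive T] [HasZeroObject T] [HasShift T ℤ]
  [∀ n : ℤ, (shiftFunctor T n).Additive] [Pretriangulated T]
  [MonoidalCategory T] [SymmetricCategory T] [TensorTriangulated T] [IsTriangulated T]
  {R : T} [MonObj R] {F : UnitFib R} {U : UnitCof R} (D : JData F U)

/-- The first multiplication after suspension. -/
lemma x₀_susp (r : ℕ) {W₁ X X' X'' : T} (m : X ⊗ X' ⟶ X'') (o : W₁ ⟶ F.K (r + 1) ⊗ X') :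
    x₀ m o ▷ (Sg T r) ≫ G D r X'' = (α_ X W₁ (Sg T r)).hom ≫
      xo U (r + 1) ((β_ X' X).hom ≫ m) (o ▷ (Sg T r) ≫ G D r X') := by
  have h1 : x₀ m o = (β_ X W₁).hom ≫ o ▷ X ≫ (α_ (F.K (r + 1)) X' X).hom ≫
      F.K (r + 1) ◁ ((β_ X' X).hom ≫ m) := by
    unfold x₀
    rw [br_eq, MonoidalCategory.whiskerLeft_comp, Category.assoc, Category.assoc,
      BraidedCategory.braiding_naturality_right_assoc]
  have h2 := G_nat D r ((β_ X' X).hom ≫ m)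
  unfold xo
  rw [comp_whiskerRight (o ▷ _), Category.assoc, reassoc_of% (G_tB D r X' X), ← h2,
    cr_nat_assoc, β_cr_assoc, Iso.hom_inv_id_assoc, h1]
  simp only [comp_whiskerRight, Category.assoc]

/-- The iso `G` for `J ⊗ (K ⊗ Y)`. -/
noncomputable def G' (r : ℕ) (Y : T) :
    (U.J ⊗ (F.K (r + 1) ⊗ Y)) ⊗ Sg T r ⟶ U.cobar.B (r + 2) Y :=
  (α_ _ _ _).hom ≫ U.J ◁ G D r Y ≫ oB U (r + 1) Y

instance isIso_G' (r : ℕ) (Y : T) : IsIso (G' D r Y) := by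
  unfold G'; infer_instance

lemma G'_nat (r : ℕ) {Y Y' : T} (f : Y ⟶ Y') :
    (U.J ◁ (F.K (r + 1) ◁ f)) ▷ (Sg T r) ≫ G' D r Y' = G' D r Y ≫ U.cobar.Bm (r + 2) f := by
  have h1 := G_nat D r f
  have h2 := oB_nat U (r + 1) f
  unfold G'
  rw [associator_naturality_middle_assoc, ← MonoidalCategory.whiskerLeft_comp_assoc, h1,
    MonoidalCategory.whiskerLeft_comp_assoc, h2, Category.assoc, Category.assoc]

lemma G'_tB (r : ℕ) (Y W : T) : G' D r Y ▷ W ≫ tB U (r + 2) Y W =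
    cr (U.J ⊗ (F.K (r + 1) ⊗ Y)) (Sg T r) W ≫
      ((α_ U.J (F.K (r + 1) ⊗ Y) W).hom ≫ U.J ◁ (α_ (F.K (r + 1)) Y W).hom) ▷ (Sg T r) ≫
        G' D r (Y ⊗ W) := by
  have h1 := G_tB D r Y W
  have h2 := oB_tB U (r + 1) Y W
  unfold G'
  rw [comp_whiskerRight, comp_whiskerRight, Category.assoc, Category.assoc, h2,
    associator_naturality_middle_assoc, ← MonoidalCategory.whiskerLeft_comp_assoc, h1,
    comp_whiskerRight, Category.assoc, associator_naturality_middle_assoc,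
    MonoidalCategory.whiskerLeft_comp_assoc, MonoidalCategory.whiskerLeft_comp_assoc,
    ← cr_left_assoc]

/-- The second multiplication after suspension. -/
lemma x₁_susp (r : ℕ) {W₂ X X' X'' : T} (m : X ⊗ X' ⟶ X'')
    (w : W₂ ⟶ U.J ⊗ (F.K (r + 1) ⊗ X)) :
    x₁ m w ▷ (Sg T r) ≫ G' D r X'' = (α_ X' W₂ (Sg T r)).hom ≫
      xo U (r + 2) m (w ▷ (Sg T r) ≫ G' D r X) := by
  have h2 := G'_nat D r m
  unfold xo x₁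
  rw [comp_whiskerRight (w ▷ _), Category.assoc, reassoc_of% (G'_tB D r X X'), ← h2,
    cr_nat_assoc, β_cr_assoc, Iso.hom_inv_id_assoc]
  simp only [comp_whiskerRight, Category.assoc, MonoidalCategory.whiskerLeft_comp]

/-- suspension of a product of the form `a ▷ W ≫ α ≫ R ◁ x` -/
lemma susp_outer {W₂ W R Y Z P Z' : T} (a : W₂ ⟶ R ⊗ Y) (x : Y ⊗ W ⟶ Z) (g : Z ⊗ P ⟶ Z') :
    (a ▷ W ≫ (α_ R Y W).hom ≫ R ◁ x) ▷ P ≫ (α_ R Z P).hom ≫ R ◁ g =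
      (α_ W₂ W P).hom ≫ a ▷ (W ⊗ P) ≫ (α_ R Y (W ⊗ P)).hom ≫
        R ◁ ((α_ Y W P).inv ≫ x ▷ P ≫ g) := by
  simp only [comp_whiskerRight, Category.assoc, MonoidalCategory.whiskerLeft_comp]
  rw [associator_naturality_middle_assoc, ← associator_naturality_left_assoc]
  congr 1
  monoidal

/-- unit maps and tensoring on the right -/
lemma unitMap_right (Z P : T) : unitMap R Z ▷ P ≫ (α_ R Z P).hom = unitMap R (Z ⊗ P) := by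
  unfold unitMap
  monoidal

/-- **(L4)** on the landed tower. Here `q = n + 1`. -/
theorem leib_tow {X : T} (n : ℕ) (φ : F.C (n + 1) ⊗ F.C (n + 1) ⟶ F.C (n + 1))
    (hL2 : (φ ≫ F.pr n) ▷ X = ((F.pr n ⊗ₘ F.pr n) ≫ μ[R]) ▷ X)
    (hL3 : ∃ ψ : (F.K (n + 1) ⊗ F.K (n + 1)) ⊗ X ⟶ (F.C (n + 1) ⊗ F.K (n + 1)) ⊗ X,
      (φ ≫ F.c (n + 1) ≫ (λ_ _).inv ≫ F.u (n + 1) ▷ F.K (n + 1)) ▷ X =
        (F.C (n + 1) ◁ F.c (n + 1)) ▷ X +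
          (F.c (n + 1) ▷ F.C (n + 1) ≫ (β_ (F.K (n + 1)) (F.C (n + 1))).hom) ▷ X +
          (F.C (n + 1) ◁ F.c (n + 1) ≫ F.c (n + 1) ▷ F.K (n + 1)) ▷ X ≫ ψ ∧
      (F.stK (n + 1) ▷ F.K (n + 1)) ▷ X ≫ ψ = 0)
    (hR1 : (U.J ◁ F.i ≫ (ρ_ U.J).hom) ▷ X = (U.δ ▷ F.I ≫ D.j.hom) ▷ X)
    (m : X ⊗ X ⟶ X) {W₁ W₂ : T} (vt : W₁ ⟶ F.C (n + 2) ⊗ X)
    (at' : W₂ ⟶ F.C (n + 2) ⊗ (U.J ⊗ X)) (b : W₂ ⊗ W₁ ⟶ U.J ⊗ X)
    (hb : prd ((α_ U.J X X).hom ≫ U.J ◁ m) (at' ≫ F.pr (n + 1) ▷ _) (vt ≫ F.pr (n + 1) ▷ X) ≫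
      μ[R] ▷ (U.J ⊗ X) = b ≫ unitMap R (U.J ⊗ X))
    (hinj : ∀ z : W₂ ⊗ W₁ ⟶ F.C (n + 1) ⊗ (U.J ⊗ X), z ≫ F.pr n ▷ _ = 0 → z = 0)
    (hf : ∀ f : W₂ ⊗ W₁ ⟶ (F.K (n + 1) ⊗ F.K (n + 2)) ⊗ (R ⊗ X), f = 0) :
    ∃ (f : (W₂ ⊗ W₁) ⊗ Sg T (n + 1) ⟶ R ⊗ U.cobar.B (n + 2) X)
      (z : W₂ ⊗ Sg T (n + 1) ⟶ U.cobar.B (n + 3) X),
      (α_ W₂ W₁ (Sg T (n + 1))).hom ≫ (at' ≫ F.pr (n + 1) ▷ _) ▷ (W₁ ⊗ Sg T (n + 1)) ≫
          (α_ R (U.J ⊗ X) (W₁ ⊗ Sg T (n + 1))).hom ≫ R ◁ ((α_ U.J X (W₁ ⊗ Sg T (n + 1))).hom ≫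
            U.J ◁ xo U (n + 2) ((β_ X X).hom ≫ m)
              ((vt ≫ F.c (n + 2) ▷ X) ▷ (Sg T (n + 1)) ≫ G D (n + 1) X) ≫ oB U (n + 2) X) +
        ((β_ W₂ W₁).hom ▷ (Sg T (n + 1)) ≫ (α_ W₁ W₂ (Sg T (n + 1))).hom) ≫
          (vt ≫ F.pr (n + 1) ▷ X) ▷ (W₂ ⊗ Sg T (n + 1)) ≫
            (α_ R X (W₂ ⊗ Sg T (n + 1))).hom ≫ R ◁ xo U (n + 3) m z =
      f ≫ U.cobar.D (n + 2) X := by
  obtain ⟨f₀, hf₀⟩ := F.leib n φ hL2 hL3 D.j hR1 ((α_ U.J X X).hom ≫ U.J ◁ m) vt at' b hb hinj hf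
  set a : W₂ ⟶ R ⊗ (U.J ⊗ X) := at' ≫ F.pr (n + 1) ▷ (U.J ⊗ X) with ha
  set v : W₁ ⟶ R ⊗ X := vt ≫ F.pr (n + 1) ▷ X with hv
  set o : W₁ ⟶ F.K (n + 2) ⊗ X := vt ≫ F.c (n + 2) ▷ X with ho
  set w : W₂ ⟶ F.K (n + 2) ⊗ (U.J ⊗ X) := at' ≫ F.c (n + 2) ▷ (U.J ⊗ X) with hw
  -- the permuted form
  have h1 : a ▷ W₁ ≫ (α_ R (U.J ⊗ X) W₁).hom ≫ R ◁ ((α_ U.J X W₁).hom ≫ U.J ◁ x₀ m o) +
      (β_ W₂ W₁).hom ≫ v ▷ W₂ ≫ (α_ R X W₂).hom ≫ R ◁ x₁ m (w ≫ br (F.K (n + 2)) U.J X) =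
      (f₀ ≫ br (F.K (n + 2)) R X) ≫ U.ρ ▷ (F.K (n + 2) ⊗ X) ≫
        unitMap R (U.J ⊗ (F.K (n + 2) ⊗ X)) := by
    have h2 := congrArg (· ≫ (α_ R (F.K (n + 2)) (U.J ⊗ X)).hom ≫
      R ◁ br (F.K (n + 2)) U.J X) hf₀
    simp only [Preadditive.add_comp, Category.assoc] at h2
    rw [prd_first, prd_second] at h2
    rw [h2]
    simp only [Category.assoc]
    rw [← Category.assoc (unitMap R (F.K (n + 2)) ▷ _), unitMap_right, ← unitMap_nat,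
      br_nat₂_assoc]
  -- suspension
  refine ⟨(f₀ ≫ br (F.K (n + 2)) R X) ▷ (Sg T (n + 1)) ≫ (α_ _ _ _).hom ≫ R ◁ G D (n + 1) X,
    (w ≫ br (F.K (n + 2)) U.J X) ▷ (Sg T (n + 1)) ≫ G' D (n + 1) X, ?_⟩
  have h3 := congrArg (fun t => t ▷ (Sg T (n + 1)) ≫
    (α_ R (U.J ⊗ (F.K (n + 2) ⊗ X)) (Sg T (n + 1))).hom ≫ R ◁ G' D (n + 1) X) h1
  simp only [MonoidalPreadditive.add_whiskerRight, Preadditive.add_comp] at h3
  rw [comp_whiskerRight (β_ W₂ W₁).hom, Category.assoc ((β_ W₂ W₁).hom ▷ _), susp_outer,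
    susp_outer] at h3
  have k1 : (α_ (U.J ⊗ X) W₁ (Sg T (n + 1))).inv ≫ ((α_ U.J X W₁).hom ≫ U.J ◁ x₀ m o) ▷
      (Sg T (n + 1)) ≫ G' D (n + 1) X = (α_ U.J X (W₁ ⊗ Sg T (n + 1))).hom ≫
        U.J ◁ xo U (n + 2) ((β_ X X).hom ≫ m) (o ▷ (Sg T (n + 1)) ≫ G D (n + 1) X) ≫
          oB U (n + 2) X := by
    have k2 := congrArg (fun t => U.J ◁ t) (x₀_susp D (n + 1) m o)
    simp only [MonoidalCategory.whiskerLeft_comp] at k2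
    unfold G'
    rw [comp_whiskerRight, Category.assoc, associator_naturality_middle_assoc, reassoc_of% k2]
    simp only [← Category.assoc]
    congr 2
    monoidal
  have k3 : (α_ X W₂ (Sg T (n + 1))).inv ≫ x₁ m (w ≫ br (F.K (n + 2)) U.J X) ▷ (Sg T (n + 1)) ≫
      G' D (n + 1) X = xo U (n + 3) m ((w ≫ br (F.K (n + 2)) U.J X) ▷ (Sg T (n + 1)) ≫
        G' D (n + 1) X) := by
    rw [x₁_susp, Iso.inv_hom_id_assoc]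
  have k4 : ((f₀ ≫ br (F.K (n + 2)) R X) ≫ U.ρ ▷ (F.K (n + 2) ⊗ X) ≫
        unitMap R (U.J ⊗ (F.K (n + 2) ⊗ X))) ▷ (Sg T (n + 1)) ≫
      (α_ R (U.J ⊗ (F.K (n + 2) ⊗ X)) (Sg T (n + 1))).hom ≫ R ◁ G' D (n + 1) X =
      ((f₀ ≫ br (F.K (n + 2)) R X) ▷ (Sg T (n + 1)) ≫ (α_ _ _ _).hom ≫ R ◁ G D (n + 1) X) ≫
        U.cobar.D (n + 2) X := by
    change _ = _ ≫ U.cobar.k (n + 2) X ≫ unitMap R (U.cobar.B (n + 3) X)
    simp only [comp_whiskerRight, Category.assoc]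
    rw [← Category.assoc (unitMap R _ ▷ _), unitMap_right, ← unitMap_nat]
    congr 2
    unfold G'
    rw [Category.assoc, associator_naturality_left_assoc, Category.assoc,
      ← whisker_exchange_assoc, ρ_oB_assoc]
  rw [k1, k3, k4] at h3
  rw [← h3]
  simp only [Category.assoc]

end Vale.Agent.P257.V4.L
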