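import Vale.Agent.P257.V4.L.Deriv

/-!
# P257, part L (Leibniz rule): lifting to the truncation

`UnitFib.exists_lift_C`: a class `x` of `R ⊗ X` and a class `o` of `K (r+1) ⊗ X` with the same image
in `K 1 ⊗ X` come from a class of `C (r+1) ⊗ X`.
-/

open CategoryTheory MonoidalCategory Limits Pretriangulated MonObj

set_option linter.unusedSectionVars false

universe v u

namespace Vale.Agent.P257.V4.L

open Vale.Agent.P251.T Vale.Agent.P251.S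

variable {T : Type u} [Category.{v} T] [Preadditive T] [HasZeroObject T] [HasShift T ℤ]
  [∀ n : ℤ, (shiftFunctor T n).Additive] [Pretriangulated T]
  [MonoidalCategory T] [SymmetricCategory T] [TensorTriangulated T] [IsTriangulated T]

/-- exactness of a triangle tensored on the right, at the third object -/
theorem tex1 {A B C : T} {f : A ⟶ B} {g : B ⟶ C} {h : C ⟶ A⟦(1 : ℤ)⟧}
    (hT : Triangle.mk f g h ∈ distTriang T) (X : T) {W : T} (o : W ⟶ A⟦(1 : ℤ)⟧ ⊗ X)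
    (ho : o ≫ (f⟦(1 : ℤ)⟧') ▷ X = 0) : ∃ v : W ⟶ C ⊗ X, o = v ≫ h ▷ X := by
  obtain ⟨v, hv⟩ := cex1 (tensR_dist X hT) (o ≫ (Vale.Agent.P251.X.tensRIso A X).hom) (by
    rw [Category.assoc, ← Vale.Agent.P251.X.tensRIso_naturality, reassoc_of% ho, zero_comp])
  refine ⟨v, ?_⟩
  rw [Vale.Agent.P251.X.tensRδ_eq, ← Category.assoc, cancel_mono] at hv
  exact hv

theorem tex3 {A B C : T} {f : A ⟶ B} {g : B ⟶ C} {h : C ⟶ A⟦(1 : ℤ)⟧}
    (hT : Triangle.mk f g h ∈ distTriang T) (X : T) {W : T} (y : W ⟶ C ⊗ X)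
    (hy : y ≫ h ▷ X = 0) : ∃ v : W ⟶ B ⊗ X, y = v ≫ g ▷ X :=
  cex3 (tensR_dist X hT) y (by rw [Vale.Agent.P251.X.tensRδ_eq, reassoc_of% hy, zero_comp])

namespace UnitFib

variable {B : T} [MonObj B] (F : UnitFib B)

/-- the iterated stage map `K (r+1) ⟶ K 1` -/
noncomputable def iK : ∀ r : ℕ, F.K (r + 1) ⟶ F.K 1
  | 0 => 𝟙 _
  | r + 1 => F.stK (r + 1) ≫ iK r

lemma iK_zero : F.iK 0 = 𝟙 _ := rfl

lemma iK_succ (r : ℕ) : F.iK (r + 1) = F.stK (r + 1) ≫ F.iK r := rfl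

/-- `F.k (𝟙_ T)` with target `K 1` -/
noncomputable def k1 : B ⊗ 𝟙_ T ⟶ F.K 1 := F.k (𝟙_ T)

lemma lay0_c : F.lay0 ≫ F.c 1 = F.k1 := F.lay_c 0

lemma k1_ip : F.k1 ≫ (F.ip 1)⟦(1 : ℤ)⟧' = 0 := by
  have h : F.ip 1 = F.d (𝟙_ T) := Category.comp_id _
  rw [h]
  exact comp_distTriang_mor_zero₃₁ _ (F.dist_k (𝟙_ T))

/-- the boundary `B ⟶ K 1` -/
noncomputable def kB : B ⟶ F.K 1 := (ρ_ B).inv ≫ F.k1

@[reassoc]
lemma c_iK (r : ℕ) : F.c (r + 1) ≫ F.iK r = F.pr r ≫ F.kB := by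
  induction r with
  | zero =>
    rw [iK_zero, Category.comp_id, pr_zero, kB, Category.assoc, Iso.hom_inv_id_assoc,
      IsIso.eq_inv_comp, lay0_c]
  | succ r ih => rw [iK_succ, ← s_pr, Category.assoc, ← ih, ← Category.assoc, c_s, Category.assoc]

lemma iK_ip (r : ℕ) : F.iK r ≫ (F.ip 1)⟦(1 : ℤ)⟧' = (F.ip (r + 1))⟦(1 : ℤ)⟧' := by
  induction r with
  | zero => rw [iK_zero, Category.id_comp]
  | succ r ih => rw [iK_succ, Category.assoc, ih, ← Functor.map_comp, st_ip]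

lemma kB_ip : F.kB ≫ (F.ip 1)⟦(1 : ℤ)⟧' = 0 := by
  rw [kB, Category.assoc, k1_ip, comp_zero]

/-- **Lifting to the truncation.** -/
theorem exists_lift_C {X W : T} (r : ℕ) (x : W ⟶ B ⊗ X) (o : W ⟶ F.K (r + 1) ⊗ X)
    (h : o ≫ F.iK r ▷ X = x ≫ F.kB ▷ X) :
    ∃ v : W ⟶ F.C (r + 1) ⊗ X, v ≫ F.pr r ▷ X = x ∧ v ≫ F.c (r + 1) ▷ X = o := by
  obtain ⟨v', hv'⟩ := tex1 (F.tri (r + 1)) X o (by
    rw [← iK_ip, comp_whiskerRight, reassoc_of% h, ← comp_whiskerRight, kB_ip,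
      MonoidalPreadditive.zero_whiskerRight, comp_zero])
  obtain ⟨z, hz⟩ := tex3 (F.dist_k (𝟙_ T)) X ((v' ≫ F.pr r ▷ X - x) ≫ (ρ_ B).inv ▷ X) (by
    rw [Category.assoc, ← comp_whiskerRight]
    change _ ≫ F.kB ▷ X = 0
    rw [Preadditive.sub_comp, Category.assoc, ← comp_whiskerRight, ← c_iK, ← h, hv',
      comp_whiskerRight, Category.assoc, sub_self])
  have h1 : v' ≫ F.pr r ▷ X - x = z ≫ η[B] ▷ X := by
    rw [← cancel_mono ((ρ_ B).inv ▷ X), hz, Category.assoc, ← comp_whiskerRight, unitMap]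
    congr 2
    rw [rightUnitor_inv_naturality, unitors_inv_equal]
  refine ⟨v' - z ≫ F.u (r + 1) ▷ X, ?_, ?_⟩
  · rw [Preadditive.sub_comp, Category.assoc, ← comp_whiskerRight, u_pr, ← h1, sub_sub_cancel]
  · rw [Preadditive.sub_comp, Category.assoc, ← comp_whiskerRight, u_c,
      MonoidalPreadditive.zero_whiskerRight, comp_zero, sub_zero, ← hv']

end UnitFib

end Vale.Agent.P257.V4.L
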