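import Vale.Agent.P257.V4.L.Adapt3
import Vale.Agent.P257.V4.L.LiftC
import Vale.Agent.P257.V4.L.Van
import Vale.Agent.P251.M.EvenPer
import Vale.Agent.P251.M.EvenShift
import Vale.Agent.P257.V4.E.TowC
import Vale.Agent.P257.V4.O.Lift

/-!
# P257, part L (Leibniz rule), file 7: lifting classes of the landed tower to the powers of `I`

* `iS t r : 𝟙⟦t⟧ ⊗ Sg r ≅ 𝟙⟦t+r⟧`;
* `exists_tl` : a class `y` of `B (r+1) Y` desuspends to a class of `K (r+1) ⊗ Y`;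
* `tl_proj` : compatibility with the projection `D^{r+1} ⟶ D^1` of the couple;
* `exists_iK_lift` : lifting from `K 1 ⊗ Y` to `K (r+1) ⊗ Y`.
-/

open CategoryTheory MonoidalCategory Limits Pretriangulated MonObj

set_option linter.unusedSectionVars false

universe v u

namespace Vale.Agent.P257.V4.L

open Vale.Agent.P251.T Vale.Agent.P251.M Vale.Agent.P251.S Vale.Agent.P257.V4.E
  Vale.Agent.P257.V4.O

variable {T : Type u} [Category.{v} T] [Preadditive T] [HasZeroObject T] [HasShift T ℤ]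
  [∀ n : ℤ, (shiftFunctor T n).Additive] [Pretriangulated T]
  [MonoidalCategory T] [SymmetricCategory T] [TensorTriangulated T] [IsTriangulated T]

instance isInv_S1 : IsInv ((𝟙_ T)⟦(1 : ℤ)⟧) := IsInv.of_inverse' negOne

instance isInv_Sg : ∀ r : ℕ, IsInv (Sg T r)
  | 0 => IsInv.unit
  | r + 1 => by
    have := isInv_Sg r
    exact IsInv.tensor (Sg T r) ((𝟙_ T)⟦(1 : ℤ)⟧)

/-- `𝟙⟦t⟧ ⊗ Sg r ≅ 𝟙⟦t'⟧`, `t + r = t'` -/
noncomputable def iS (t : ℤ) : ∀ (r : ℕ) (t' : ℤ) (_ : t + r = t'),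
    (𝟙_ T)⟦t⟧ ⊗ Sg T r ≅ (𝟙_ T)⟦t'⟧
  | 0, t', h => ρ_ _ ≪≫ eqToIso (by
      have h1 : t = t' := by simpa using h
      rw [h1])
  | r + 1, t', h => (α_ _ _ _).symm ≪≫ whiskerRightIso (iS t r (t + r) rfl) _ ≪≫
      TensorTriangulated.e _ ≪≫
        ((shiftFunctorAdd' T (t + r) 1 t' (by push_cast at h; linarith)).symm.app (𝟙_ T))

lemma iS_succ_hom (t : ℤ) (r : ℕ) (t' : ℤ) (h : t + (r + 1 : ℕ) = t') :
    (iS (T := T) t (r + 1) t' h).hom = (α_ ((𝟙_ T)⟦t⟧) (Sg T r) ((𝟙_ T)⟦(1 : ℤ)⟧)).inv ≫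
      (iS t r (t + r) rfl).hom ▷ ((𝟙_ T)⟦(1 : ℤ)⟧) ≫ (TensorTriangulated.e _).hom ≫
        (shiftFunctorAdd' T (t + r) 1 t' (by push_cast at h; linarith)).inv.app (𝟙_ T) := rfl

section tl

variable {R : T} [MonObj R] {F : UnitFib R} {U : UnitCof R} (D : JData F U)

lemma exists_tl (r : ℕ) {Y : T} {t t' : ℤ} (h : t + r = t')
    (y : (𝟙_ T)⟦t'⟧ ⟶ U.cobar.B (r + 1) Y) :
    ∃ y' : (𝟙_ T)⟦t⟧ ⟶ F.K (r + 1) ⊗ Y, y' ▷ (Sg T r) ≫ G D r Y = (iS t r t' h).hom ≫ y := by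
  obtain ⟨y', hy'⟩ := whiskerRight_surj (Sg T r) ((iS t r t' h).hom ≫ y ≫ inv (G D r Y))
  refine ⟨y', ?_⟩
  rw [hy', Category.assoc, Category.assoc, IsIso.inv_hom_id, Category.comp_id]

/-- one step down -/
lemma tl_down (r : ℕ) {Y : T} {t t'' : ℤ} (h' : t + (r + 1 : ℕ) = t'')
    (ht : (t + r) + 1 = t'')
    (y' : (𝟙_ T)⟦t''⟧ ⟶ U.cobar.B (r + 2) Y) (y : (𝟙_ T)⟦t + r⟧ ⟶ U.cobar.B (r + 1) Y)
    (hy : sh (t + r) 1 t'' ht y = y' ≫ U.bd (r + 1) Y)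
    (x' : (𝟙_ T)⟦t⟧ ⟶ F.K (r + 2) ⊗ Y) (x : (𝟙_ T)⟦t⟧ ⟶ F.K (r + 1) ⊗ Y)
    (h1 : x' ▷ (Sg T (r + 1)) ≫ G D (r + 1) Y = (iS t (r + 1) t'' h').hom ≫ y')
    (h2 : x ▷ (Sg T r) ≫ G D r Y = (iS t r (t + r) rfl).hom ≫ y) :
    x' ≫ F.stK (r + 1) ▷ Y = x := by
  apply whiskerRight_inj (Sg T r)
  rw [← cancel_mono (G D r Y)]
  apply whiskerRight_inj ((𝟙_ T)⟦(1 : ℤ)⟧)
  rw [← cancel_mono (TensorTriangulated.e _).hom,
    ← cancel_epi (α_ ((𝟙_ T)⟦t⟧) (Sg T r) ((𝟙_ T)⟦(1 : ℤ)⟧)).inv]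
  have h3 := congrArg (· ≫ U.bd (r + 1) Y) h1
  simp only [Category.assoc] at h3
  rw [G_bd, ← hy, iS_succ_hom] at h3
  have h4 : (iS (T := T) t r (t + r) rfl).hom ▷ ((𝟙_ T)⟦(1 : ℤ)⟧) ≫
      (TensorTriangulated.e _).hom ≫
        (shiftFunctorAdd' T (t + r) 1 t'' (by push_cast at h'; linarith)).inv.app (𝟙_ T) ≫
          sh (t + r) 1 t'' ht y =
      (x ▷ (Sg T r) ≫ G D r Y) ▷ ((𝟙_ T)⟦(1 : ℤ)⟧) ≫ (TensorTriangulated.e _).hom := by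
    have h5 : (shiftFunctorAdd' T (t + r) 1 t'' (by push_cast at h'; linarith)).inv.app (𝟙_ T) ≫
        sh (t + r) 1 t'' ht y = y⟦(1 : ℤ)⟧' := by
      change _ ≫ _ ≫ _ = _
      exact Iso.inv_hom_id_app_assoc _ _ _
    rw [h5, h2, comp_whiskerRight, Category.assoc, TensorTriangulated.e_naturality]
  simp only [Category.assoc] at h3
  rw [h4] at h3
  rw [← h3]
  change _ = x' ▷ (Sg T r ⊗ ((𝟙_ T)⟦(1 : ℤ)⟧)) ≫ _
  rw [← comp_whiskerRight_assoc, associator_inv_naturality_left_assoc,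
    comp_whiskerRight _ (G D r Y), Category.assoc]

/-- the base case -/
lemma tl_zero {Y : T} {t t' : ℤ} (h : t + (0 : ℕ) = t') (y : (𝟙_ T)⟦t'⟧ ⟶ U.cobar.B 1 Y)
    (x : (𝟙_ T)⟦t⟧ ⟶ F.K 1 ⊗ Y) (hx : x ▷ (Sg T 0) ≫ G D 0 Y = (iS t 0 t' h).hom ≫ y) :
    x ≫ D.j₁.hom ▷ Y = eqToHom (by
      have h1 : t = t' := by simpa using h
      rw [h1]) ≫ y := by
  have h1 : x ▷ (𝟙_ T) ≫ (ρ_ _).hom ≫ D.j₁.hom ▷ Y =
      ((ρ_ _).hom ≫ eqToHom (by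
        have h1 : t = t' := by simpa using h
        rw [h1])) ≫ y := hx
  rw [rightUnitor_naturality_assoc, Category.assoc] at h1
  exact (cancel_epi (ρ_ _).hom).1 h1

/-- Compatibility with the projections of the couple. -/
theorem tl_proj {X : T} (r : ℕ) {m t t' : ℤ} (h : t + r = t') (hm : m + 1 = t)
    (hm' : m + ((r + 1 : ℕ) : ℤ) = t') (hm1 : m + ((1 : ℕ) : ℤ) = t)
    (y : (cpl U X).D (r + 1) m) (x : (𝟙_ T)⟦t⟧ ⟶ F.K (r + 1) ⊗ X)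
    (hx : x ▷ (Sg T r) ≫ G D r X = (iS t r t' h).hom ≫ dT U X (𝟙_ T) hm' y) :
    x ≫ F.iK r ▷ X ≫ D.j₁.hom ▷ X =
      dT U X (𝟙_ T) hm1 ((cpl U X).proj m (show 1 ≤ r + 1 by omega) y) := by
  induction r generalizing t' with
  | zero =>
    obtain rfl : t = t' := by simpa using h
    have h1 := tl_zero D h _ x hx
    have h2 : (cpl U X).proj m (show 1 ≤ 0 + 1 by omega) y = y := Couple.proj_self _ _ _ _
    rw [h2, UnitFib.iK_zero, id_whiskerRight, Category.id_comp, h1]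
    exact Category.id_comp _
  | succ r ih =>
    obtain ⟨x₁, hx₁⟩ := exists_tl D r (t := t) rfl (dT U X (𝟙_ T) (s := r + 1)
      (show m + ((r + 1 : ℕ) : ℤ) = t + r by push_cast; linarith) ((cpl U X).i (r + 1) m y))
    have h1 := dT_i U X (𝟙_ T) (s := r + 1)
      (show m + ((r + 1 : ℕ) : ℤ) = t + r by push_cast; linarith) hm'
      (show t + r + 1 = t' by push_cast at h; linarith) y
    have h2 := tl_down D r h (by push_cast at h; linarith) _ _ h1 x x₁ hx hx₁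
    have h3 := ih rfl (by push_cast; linarith) ((cpl U X).i (r + 1) m y) x₁ hx₁
    have h4 : (cpl U X).proj m (show 1 ≤ r + 1 + 1 by omega) y =
        (cpl U X).proj m (show 1 ≤ r + 1 by omega) ((cpl U X).i (r + 1) m y) :=
      Couple.proj_succ _ m (show 1 ≤ r + 1 by omega) y
    rw [h4, ← h3, ← h2, UnitFib.iK_succ, comp_whiskerRight, Category.assoc, Category.assoc]

/-- `kB ≫ j₁ = ρ` -/
lemma kB_j₁ : F.kB ≫ D.j₁.hom = U.ρ := by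
  have h1 := F.c_iK 0
  rw [UnitFib.iK_zero, Category.comp_id] at h1
  have h2 := D.hj₁
  rw [h1, Category.assoc] at h2
  exact (cancel_epi (F.pr 0)).1 h2

/-- **Lifting a class whose obstruction in filtration `r + 1` is `y` to the truncation.** -/
theorem exists_lift_y {X : T} (r : ℕ) {m t t' : ℤ} (h : t + r = t') (hm : m + 1 = t)
    (hm' : m + ((r + 1 : ℕ) : ℤ) = t') (hm1 : m + ((1 : ℕ) : ℤ) = t)
    (y : (cpl U X).D (r + 1) m) (v : (𝟙_ T)⟦t⟧ ⟶ R ⊗ X)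
    (hv : dT U X (𝟙_ T) hm1 ((cpl U X).proj m (show 1 ≤ r + 1 by omega) y) = v ≫ U.ρ ▷ X) :
    ∃ v' : (𝟙_ T)⟦t⟧ ⟶ F.C (r + 1) ⊗ X, v' ≫ F.pr r ▷ X = v ∧
      (v' ≫ F.c (r + 1) ▷ X) ▷ (Sg T r) ≫ G D r X =
        (iS t r t' h).hom ≫ dT U X (𝟙_ T) hm' y := by
  obtain ⟨x, hx⟩ := exists_tl D r h (dT U X (𝟙_ T) hm' y)
  have h1 := tl_proj D r h hm hm' hm1 y x hx
  obtain ⟨v', hv1, hv2⟩ := F.exists_lift_C r v x (by
    rw [← cancel_mono (D.j₁.hom ▷ X), Category.assoc, h1, hv, Category.assoc,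
      ← comp_whiskerRight, kB_j₁])
  exact ⟨v', hv1, by rw [hv2, hx]⟩

end tl

section liftK

variable {R : T} [MonObj R] (F : UnitFib R)

lemma exists_liftK (r : ℕ) {W Y : T} (y : W ⟶ F.K (r + 1) ⊗ Y)
    (h : y ≫ unitMap R (F.K (r + 1) ⊗ Y) = 0) :
    ∃ y' : W ⟶ F.K (r + 2) ⊗ Y, y' ≫ F.stK (r + 1) ▷ Y = y := by
  obtain ⟨g, hg⟩ := cex2 (F.dist_k (F.K (r + 1) ⊗ Y)) y h
  refine ⟨g ≫ (KI F r Y).inv, ?_⟩
  rw [Category.assoc, ← KI_d, Iso.inv_hom_id_assoc, ← hg]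

/-- Lifting from `K 1` to `K (r+1)`. -/
lemma exists_iK_lift (r : ℕ) {W Y : T} (y : W ⟶ F.K 1 ⊗ Y) (h : y ≫ unitMap R (F.K 1 ⊗ Y) = 0)
    (hv : ∀ i, 2 ≤ i → i ≤ r → Zr W (R ⊗ (F.K i ⊗ Y))) :
    ∃ y' : W ⟶ F.K (r + 1) ⊗ Y, y' ≫ F.iK r ▷ Y = y := by
  induction r with
  | zero => exact ⟨y, by rw [UnitFib.iK_zero, id_whiskerRight, Category.comp_id]⟩
  | succ r ih =>
    obtain ⟨y₁, hy₁⟩ := ih (fun i h1 h2 => hv i h1 (by omega))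
    obtain ⟨y₂, hy₂⟩ := exists_liftK F r y₁ (by
      rcases Nat.eq_zero_or_pos r with rfl | hr
      · rw [UnitFib.iK_zero, id_whiskerRight, Category.comp_id] at hy₁
        rw [hy₁, h]
      · exact hv (r + 1) (by omega) le_rfl _)
    exact ⟨y₂, by rw [UnitFib.iK_succ, comp_whiskerRight, reassoc_of% hy₂, hy₁]⟩

variable {F} {U : UnitCof R} (D : JData F U)

include D in
/-- **Lifting a cocycle of filtration one to the truncation.** -/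
theorem exists_lift_a {X W : T} (n : ℕ) (hS : SPJ U X (n + 1 : ℕ)) {t : ℤ}
    (hW : Jsh U (𝟙_ T) W 0 t) (ht : ((n + 1 : ℕ) : ℤ) ∣ t) (a : W ⟶ R ⊗ (U.J ⊗ X))
    (ha : a ≫ U.cobar.D 1 X = 0) :
    ∃ a' : W ⟶ F.C (n + 2) ⊗ (U.J ⊗ X), a' ≫ F.pr (n + 1) ▷ (U.J ⊗ X) = a := by
  have h1 : (a ≫ F.kB ▷ (U.J ⊗ X)) ≫ unitMap R (F.K 1 ⊗ (U.J ⊗ X)) = 0 := by
    have h2 : U.cobar.D 1 X = U.ρ ▷ (U.J ⊗ X) ≫ unitMap R (U.J ⊗ (U.J ⊗ X)) := rfl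
    rw [h2, ← kB_j₁ D, comp_whiskerRight, Category.assoc] at ha
    rw [← cancel_mono (R ◁ (D.j₁.hom ▷ (U.J ⊗ X))), zero_comp, ← ha]
    simp only [Category.assoc]
    rw [unitMap_nat]
  obtain ⟨y, hy⟩ := exists_iK_lift F (n + 1) _ h1 fun i h2 h3 => by
    refine hS.zr hW (((Jsh.self U X).tensJ).tensK F i)
      (not_dvd_of (i - 1 : ℤ) ?_ (by omega) (by push_cast; omega))
    have h4 : t - (0 - (i : ℤ) + 1) - (i - 1) = t := by ring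
    rwa [h4]
  obtain ⟨a', ha', -⟩ := F.exists_lift_C (n + 1) a y hy
  exact ⟨a', ha'⟩

end liftK

end Vale.Agent.P257.V4.L
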