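import Vale.Agent.P257.V4.L.Layer

/-!
# P257, part L (Leibniz rule), file 2: multiplicativity and the derivation property (L2), (L3)

* `UnitFib.pr r : C (r+1) ⟶ B`, the projection (`u_pr`, `s_pr`);
* `UnitFib.exists_ψ`: a map `D : C r ⊗ C r ⟶ N` vanishing on both units is `(c ⊗ c) ≫ ψ`, if
  `[𝟙⟦1⟧, N] = 0`;
* `UnitFib.phi_pr` (L2); `UnitFib.exists_deriv` (L3); `UnitFib.d_eq` (R1), all after `▷ X` for
  an object `X` with a left unital product, with vanishing hypotheses for targets `N ⊗ X`.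
-/

open CategoryTheory MonoidalCategory Limits Pretriangulated MonObj

set_option linter.unusedSectionVars false

universe v u

namespace Vale.Agent.P257.V4.L

open Vale.Agent.P251.T Vale.Agent.P251.S

variable {T : Type u} [Category.{v} T] [Preadditive T] [HasZeroObject T] [HasShift T ℤ]
  [∀ n : ℤ, (shiftFunctor T n).Additive] [Pretriangulated T]
  [MonoidalCategory T] [SymmetricCategory T] [TensorTriangulated T] [IsTriangulated T]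

namespace UnitFib

variable {B : T} [MonObj B] (F : UnitFib B)

/-- the bottom layer, which is an isomorphism -/
noncomputable def lay0 : B ⊗ 𝟙_ T ⟶ F.C 1 := F.lay 0

instance isIso_lay0 : IsIso F.lay0 :=
  (Triangle.isZero₃_iff_isIso₁ _ (F.s_dist 0)).1 F.isZero_C_zero

lemma un_lay0 : unitMap B (𝟙_ T) ≫ F.lay0 = F.u 1 := by
  have h : unitMap B (𝟙_ T) ≫ F.lay0 = 𝟙 (𝟙_ T) ≫ F.u 1 := F.un_lay 0
  rw [h, Category.id_comp]

/-- the projection of the truncation to `B` -/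
noncomputable def pr : ∀ r : ℕ, F.C (r + 1) ⟶ B
  | 0 => inv F.lay0 ≫ (ρ_ B).hom
  | r + 1 => F.s (r + 1) ≫ pr r

lemma pr_zero : F.pr 0 = inv F.lay0 ≫ (ρ_ B).hom := rfl

lemma s_pr (r : ℕ) : F.s (r + 1) ≫ F.pr r = F.pr (r + 1) := rfl

instance isIso_pr_zero : IsIso (F.pr 0) := by
  rw [pr_zero]
  infer_instance

@[reassoc (attr := simp)]
lemma u_pr (r : ℕ) : F.u (r + 1) ≫ F.pr r = η[B] := by
  induction r with
  | zero =>
    change F.u 1 ≫ F.pr 0 = _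
    rw [← un_lay0, pr_zero, Category.assoc, IsIso.hom_inv_id_assoc, unitMap,
      Category.assoc, rightUnitor_naturality, ← unitors_equal, Iso.inv_hom_id_assoc]
  | succ r ih => rw [← s_pr, u_s_assoc, ih]

/-- **Two-sided vanishing.** A map on `C r ⊗ C r` vanishing on both units factors through
`c ⊗ c`. -/
theorem exists_ψ (r : ℕ) {N : T} (hN : ∀ f : (𝟙_ T)⟦(1 : ℤ)⟧ ⟶ N, f = 0)
    (D : F.C r ⊗ F.C r ⟶ N) (h1 : F.C r ◁ F.u r ≫ D = 0) (h2 : F.u r ▷ F.C r ≫ D = 0) :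
    ∃ ψ : F.K r ⊗ F.K r ⟶ N, D = F.C r ◁ F.c r ≫ F.c r ▷ F.K r ≫ ψ := by
  obtain ⟨D', hD'⟩ : ∃ D' : F.C r ⊗ F.K r ⟶ N, D = F.C r ◁ F.c r ≫ D' := by
    obtain ⟨b, hb⟩ := Vale.Agent.P251.X.yex3 (tens_dist (F.C r) (F.tri r)) D h1
    refine ⟨(tensorShiftOne (F.C r)).hom.app (F.Ip r) ≫ b, ?_⟩
    rw [hb, tensorShiftOne_hom_app]
    unfold tensδ
    simp only [Category.assoc]
  have h3 : F.c r ≫ (λ_ _).inv ≫ F.u r ▷ F.K r ≫ D' = 0 := by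
    rw [leftUnitor_inv_naturality_assoc, whisker_exchange_assoc, ← hD', h2, comp_zero]
  obtain ⟨ξ, hξ⟩ := Vale.Agent.P251.X.yex4 (F.tri r) _ h3
  rw [hN ξ, comp_zero] at hξ
  have h4 : F.u r ▷ F.K r ≫ D' = 0 := by
    rw [← cancel_epi (λ_ (F.K r)).inv, hξ, comp_zero]
  obtain ⟨b, hb⟩ := Vale.Agent.P251.X.yex3 (tensR_dist (F.K r) (F.tri r)) D' h4
  refine ⟨(Vale.Agent.P251.X.tensRIso (F.Ip r) (F.K r)).hom ≫ b, ?_⟩
  rw [hD', hb, Vale.Agent.P251.X.tensRδ_eq]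
  simp only [Category.assoc]

/-! ### Coefficients: `X` with a left unital product -/

/-- `N ⟶ N ⊗ X` -/
def insR {X : T} (uX : 𝟙_ T ⟶ X) (N : T) : N ⟶ N ⊗ X := (ρ_ N).inv ≫ N ◁ uX

@[reassoc]
lemma insR_nat {X : T} (uX : 𝟙_ T ⟶ X) {N N' : T} (f : N ⟶ N') :
    f ≫ insR uX N' = insR uX N ≫ f ▷ X := by
  unfold insR
  rw [Category.assoc, whisker_exchange, rightUnitor_inv_naturality_assoc]

/-- the right `X`-linear extension -/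
def extR {X : T} (mX : X ⊗ X ⟶ X) {M N : T} (f : M ⟶ N ⊗ X) : M ⊗ X ⟶ N ⊗ X :=
  f ▷ X ≫ (α_ _ _ _).hom ≫ N ◁ mX

@[reassoc]
lemma comp_extR {X : T} (mX : X ⊗ X ⟶ X) {M' M N : T} (g : M' ⟶ M) (f : M ⟶ N ⊗ X) :
    extR mX (g ≫ f) = g ▷ X ≫ extR mX f := by
  unfold extR
  rw [comp_whiskerRight_assoc]

lemma extR_zero {X : T} (mX : X ⊗ X ⟶ X) {M N : T} : extR mX (0 : M ⟶ N ⊗ X) = 0 := by
  unfold extR
  rw [MonoidalPreadditive.zero_whiskerRight, zero_comp]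

lemma extR_insR {X : T} (uX : 𝟙_ T ⟶ X) (mX : X ⊗ X ⟶ X)
    (hm : uX ▷ X ≫ mX = (λ_ X).hom) (N : T) : extR mX (insR uX N) = 𝟙 _ := by
  unfold extR insR
  rw [comp_whiskerRight_assoc, associator_naturality_middle_assoc,
    ← MonoidalCategory.whiskerLeft_comp, hm]
  monoidal

/-- a map is determined after `▷ X` by its composite with `N ⟶ N ⊗ X` -/
lemma whisker_eq_extR {X : T} (uX : 𝟙_ T ⟶ X) (mX : X ⊗ X ⟶ X)
    (hm : uX ▷ X ≫ mX = (λ_ X).hom) {M N : T} (f : M ⟶ N) :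
    f ▷ X = extR mX (f ≫ insR uX N) := by
  rw [comp_extR, extR_insR uX mX hm, Category.comp_id]

section coeff

variable {X : T} (uX : 𝟙_ T ⟶ X) (mX : X ⊗ X ⟶ X) (hm : uX ▷ X ≫ mX = (λ_ X).hom)

/-- **(L2)** the projection is multiplicative (after tensoring with `X`). -/
theorem phi_pr (r : ℕ) (φ : F.C (r + 1) ⊗ F.C (r + 1) ⟶ F.C (r + 1))
    (h1 : F.C (r + 1) ◁ F.u (r + 1) ≫ φ = (ρ_ _).hom)
    (h2 : F.u (r + 1) ▷ F.C (r + 1) ≫ φ = (λ_ _).hom)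
    (hm : uX ▷ X ≫ mX = (λ_ X).hom)
    (v1 : ∀ f : (𝟙_ T)⟦(1 : ℤ)⟧ ⟶ B ⊗ X, f = 0)
    (v2 : ∀ f : F.K (r + 1) ⊗ F.K (r + 1) ⟶ B ⊗ X, f = 0) :
    (φ ≫ F.pr r) ▷ X = ((F.pr r ⊗ₘ F.pr r) ≫ μ[B]) ▷ X := by
  have e1 : F.C (r + 1) ◁ F.u (r + 1) ≫ (φ ≫ F.pr r - (F.pr r ⊗ₘ F.pr r) ≫ μ[B]) = 0 := by
    rw [Preadditive.comp_sub, reassoc_of% h1, sub_eq_zero, tensorHom_def,
      Category.assoc, whisker_exchange_assoc, ← MonoidalCategory.whiskerLeft_comp_assoc, u_pr,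
      ← rightUnitor_naturality]
    rw [MonObj.mul_one]
  have e2 : F.u (r + 1) ▷ F.C (r + 1) ≫ (φ ≫ F.pr r - (F.pr r ⊗ₘ F.pr r) ≫ μ[B]) = 0 := by
    rw [Preadditive.comp_sub, reassoc_of% h2, sub_eq_zero, tensorHom_def,
      Category.assoc, ← comp_whiskerRight_assoc, u_pr, ← whisker_exchange_assoc,
      MonObj.one_mul, leftUnitor_naturality]
  obtain ⟨ψ, hψ⟩ := F.exists_ψ (r + 1) v1
    ((φ ≫ F.pr r - (F.pr r ⊗ₘ F.pr r) ≫ μ[B]) ≫ insR uX B)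
    (by rw [reassoc_of% e1, zero_comp]) (by rw [reassoc_of% e2, zero_comp])
  rw [v2 ψ, comp_zero, comp_zero] at hψ
  rw [whisker_eq_extR uX mX hm (φ ≫ F.pr r), whisker_eq_extR uX mX hm (_ ≫ μ[B])]
  rw [Preadditive.sub_comp] at hψ
  rw [sub_eq_zero.1 hψ]

lemma stK_whisker_eq_zero {n : ℕ} {W N : T} (hN : F.BMod N) (f : F.K n ⊗ W ⟶ N) :
    F.stK n ▷ W ≫ f = 0 := by
  rw [stK_eq, comp_whiskerRight, Category.assoc, d_whisker, Category.assoc, hN, comp_zero,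
    comp_zero]

/-- **(L3)** the boundary is a derivation up to `(c ⊗ c) ≫ ψ`, and `ψ` dies on the next stage
(after tensoring with `X`). -/
theorem exists_deriv (n : ℕ) (φ : F.C (n + 1) ⊗ F.C (n + 1) ⟶ F.C (n + 1))
    (h1 : F.C (n + 1) ◁ F.u (n + 1) ≫ φ = (ρ_ _).hom)
    (h2 : F.u (n + 1) ▷ F.C (n + 1) ≫ φ = (λ_ _).hom)
    (hm : uX ▷ X ≫ mX = (λ_ X).hom)
    (v1 : ∀ f : (𝟙_ T)⟦(1 : ℤ)⟧ ⟶ (F.C (n + 1) ⊗ F.K (n + 1)) ⊗ X, f = 0)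
    (v2 : ∀ f : F.K (n + 1) ⊗ F.K (n + 1) ⟶ (F.C n ⊗ F.K (n + 1)) ⊗ X, f = 0) :
    ∃ ψ : (F.K (n + 1) ⊗ F.K (n + 1)) ⊗ X ⟶ (F.C (n + 1) ⊗ F.K (n + 1)) ⊗ X,
      (φ ≫ F.c (n + 1) ≫ (λ_ _).inv ≫ F.u (n + 1) ▷ F.K (n + 1)) ▷ X =
        (F.C (n + 1) ◁ F.c (n + 1)) ▷ X +
          (F.c (n + 1) ▷ F.C (n + 1) ≫ (β_ (F.K (n + 1)) (F.C (n + 1))).hom) ▷ X +
          (F.C (n + 1) ◁ F.c (n + 1) ≫ F.c (n + 1) ▷ F.K (n + 1)) ▷ X ≫ ψ ∧
      (F.stK (n + 1) ▷ F.K (n + 1)) ▷ X ≫ ψ = 0 := by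
  set E : F.C (n + 1) ⊗ F.C (n + 1) ⟶ F.C (n + 1) ⊗ F.K (n + 1) :=
    φ ≫ F.c (n + 1) ≫ (λ_ _).inv ≫ F.u (n + 1) ▷ F.K (n + 1) - (F.C (n + 1) ◁ F.c (n + 1) +
      F.c (n + 1) ▷ F.C (n + 1) ≫ (β_ (F.K (n + 1)) (F.C (n + 1))).hom) with hE
  have e1 : F.C (n + 1) ◁ F.u (n + 1) ≫ E = 0 := by
    rw [hE, Preadditive.comp_sub, reassoc_of% h1, sub_eq_zero, Preadditive.comp_add,
      ← MonoidalCategory.whiskerLeft_comp, u_c, MonoidalPreadditive.whiskerLeft_zero, zero_add,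
      whisker_exchange_assoc, BraidedCategory.braiding_naturality_right,
      braiding_tensorUnit_right, Category.assoc, ← rightUnitor_naturality_assoc]
  have e2 : F.u (n + 1) ▷ F.C (n + 1) ≫ E = 0 := by
    rw [hE, Preadditive.comp_sub, reassoc_of% h2, sub_eq_zero, Preadditive.comp_add,
      ← comp_whiskerRight_assoc, u_c, MonoidalPreadditive.zero_whiskerRight, zero_comp, add_zero,
      ← whisker_exchange, ← leftUnitor_naturality_assoc, Iso.hom_inv_id_assoc]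
  obtain ⟨ψ, hψ⟩ := F.exists_ψ (n + 1) v1 (E ≫ insR uX _)
    (by rw [reassoc_of% e1, zero_comp]) (by rw [reassoc_of% e2, zero_comp])
  refine ⟨extR mX ψ, ?_, ?_⟩
  · have h3 : E ▷ X = (F.C (n + 1) ◁ F.c (n + 1) ≫ F.c (n + 1) ▷ F.K (n + 1)) ▷ X ≫
        extR mX ψ := by
      rw [whisker_eq_extR uX mX hm E, hψ, ← comp_extR, Category.assoc]
    rw [← h3, ← MonoidalPreadditive.add_whiskerRight, ← MonoidalPreadditive.add_whiskerRight, hE,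
      add_sub_cancel]
  · obtain ⟨ψ', hψ'⟩ := cex2 (tensR_dist X (tensR_dist (F.K (n + 1)) (F.s_dist n))) ψ (v2 _)
    have hB : F.BMod (((B ⊗ F.Ip n) ⊗ F.K (n + 1)) ⊗ X) :=
      F.bMod_iso (α_ _ _ _) (F.bMod_free_tensor (F.Ip n) (F.K (n + 1) ⊗ X))
    rw [← comp_extR, hψ', ← Category.assoc, F.stK_whisker_eq_zero hB ψ', zero_comp, extR_zero]

/-- **(R1)** after tensoring with `X` the two maps `I ⊗ I ⟶ I` agree. -/
theorem d_eq (hm : uX ▷ X ≫ mX = (λ_ X).hom)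
    (v : ∀ f : (F.I ⊗ F.I)⟦(1 : ℤ)⟧ ⟶ B ⊗ X, f = 0) :
    F.d F.I ▷ X = (F.I ◁ F.i ≫ (ρ_ _).hom) ▷ X := by
  have h1 : (F.d F.I - F.I ◁ F.i ≫ (ρ_ _).hom) ≫ F.i = 0 := by
    unfold d
    rw [Preadditive.sub_comp, sub_eq_zero, Category.assoc, Category.assoc, ← leftUnitor_naturality,
      ← rightUnitor_naturality, whisker_exchange_assoc, unitors_equal]
  set D : F.I ⊗ F.I ⟶ F.I := F.d F.I - F.I ◁ F.i ≫ (ρ_ _).hom with hD
  have h2 : (D ≫ insR uX F.I) ≫ F.i ▷ X = 0 := by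
    rw [Category.assoc, ← insR_nat, reassoc_of% h1, zero_comp]
  have h3 : D ≫ insR uX F.I = 0 := by
    apply (shiftFunctor T (1 : ℤ)).map_injective
    obtain ⟨b, hb⟩ := cex1 (tensR_dist X F.dist) ((D ≫ insR uX F.I)⟦(1 : ℤ)⟧')
      (by rw [← Functor.map_comp, h2, Functor.map_zero])
    rw [hb, v b, zero_comp, Functor.map_zero]
  rw [whisker_eq_extR uX mX hm (F.d F.I), whisker_eq_extR uX mX hm (F.I ◁ F.i ≫ _)]
  rw [hD, Preadditive.sub_comp] at h3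
  rw [sub_eq_zero.1 h3]

end coeff

end UnitFib

end Vale.Agent.P257.V4.L
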