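import Vale.Agent.P251.S.CobarR
import Vale.Agent.P251.S.KosData
import Vale.Agent.P251.X.Step
import Mathlib.CategoryTheory.Triangulated.Triangulated

/-!
# P257, part L (Leibniz rule), file 1: the truncations `C_r` and the pairing (L1)

`B` is a monoid of a tensor triangulated category, `I ⟶ 𝟙 ⟶ B ⟶ I⟦1⟧` the fibre of its unit
(`UnitFib B`), `Ip r = I ⊗ (I ⊗ … ⊗ 𝟙)` (mirrored nesting, as in `P251.S.UnitCof.cobar`),
`ip r : Ip r ⟶ 𝟙` drops the outermost factor first, `C r` is the cofibre of `ip r`.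

* `UnitFib.tri r`: `Ip r ⟶ 𝟙 ⟶ C r ⟶ (Ip r)⟦1⟧` (maps `ip r`, `u r`, `c r`);
* `UnitFib.s_dist r`: `B ⊗ Ip r ⟶ C (r+1) ⟶ C r` (maps `lay r`, `s r`), with
  `u_s`, `c_s`, `lay_c`, `un_lay`;
* `UnitFib.kill_C`: `(ip r ▷ W) ≫ λ ≫ h = 0` for every `h : W ⟶ C r`;
* `UnitFib.exists_phi` (L1): a pairing `C r ⊗ C r ⟶ C r` with two-sided unit `u r`.
-/

open CategoryTheory MonoidalCategory Limits Pretriangulated MonObj

set_option linter.unusedSectionVars false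

universe v u

namespace Vale.Agent.P257.V4.L

open Vale.Agent.P251.T Vale.Agent.P251.S

variable {T : Type u} [Category.{v} T] [Preadditive T] [HasZeroObject T] [HasShift T ℤ]
  [∀ n : ℤ, (shiftFunctor T n).Additive] [Pretriangulated T]
  [MonoidalCategory T]

/-- A fibre of the unit of a monoid. -/
structure UnitFib (B : T) [MonObj B] where
  /-- the fibre of the unit -/
  I : T
  /-- the inclusion -/
  i : I ⟶ 𝟙_ T
  /-- the boundary map -/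
  δ : B ⟶ I⟦(1 : ℤ)⟧
  dist : Triangle.mk i η[B] δ ∈ distTriang T

lemma exists_unitFib (B : T) [MonObj B] : Nonempty (UnitFib B) := by
  obtain ⟨J, f, g, h⟩ := distinguished_cocone_triangle₁ (η[B])
  exact ⟨⟨J, f, g, h⟩⟩

omit [MonoidalCategory T] in
theorem cex2 {A B C : T} {f : A ⟶ B} {g : B ⟶ C} {h : C ⟶ A⟦(1 : ℤ)⟧}
    (hT : Triangle.mk f g h ∈ distTriang T) {Y : T} (a : Y ⟶ B) (ha : a ≫ g = 0) :
    ∃ b : Y ⟶ A, a = b ≫ f := Triangle.coyoneda_exact₂ _ hT a ha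

omit [MonoidalCategory T] in
theorem cex3 {A B C : T} {f : A ⟶ B} {g : B ⟶ C} {h : C ⟶ A⟦(1 : ℤ)⟧}
    (hT : Triangle.mk f g h ∈ distTriang T) {Y : T} (a : Y ⟶ C) (ha : a ≫ h = 0) :
    ∃ b : Y ⟶ B, a = b ≫ g := Triangle.coyoneda_exact₃ _ hT a ha

omit [MonoidalCategory T] in
theorem cex1 {A B C : T} {f : A ⟶ B} {g : B ⟶ C} {h : C ⟶ A⟦(1 : ℤ)⟧}
    (hT : Triangle.mk f g h ∈ distTriang T) {Y : T} (a : Y ⟶ A⟦(1 : ℤ)⟧)
    (ha : a ≫ f⟦(1 : ℤ)⟧' = 0) :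
    ∃ b : Y ⟶ C, a = b ≫ h := Triangle.coyoneda_exact₁ _ hT a ha

variable [SymmetricCategory T] [TensorTriangulated T]

/-- `X ⊗ - ` and the shift: naturality in `X`. -/
lemma tensorShiftOne_nat {X X' : T} (f : X ⟶ X') (Y : T) :
    (f ▷ (Y⟦(1 : ℤ)⟧)) ≫ (tensorShiftOne X').hom.app Y =
      (tensorShiftOne X).hom.app Y ≫ (f ▷ Y)⟦(1 : ℤ)⟧' := by
  rw [tensorShiftOne_hom_app, tensorShiftOne_hom_app]
  rw [← whisker_exchange_assoc]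
  simp only [Category.assoc]
  rw [← TensorTriangulated.e_naturality, ← associator_inv_naturality_left_assoc]

/-- `𝟙 ⊗ Y⟦1⟧ ≅ (𝟙 ⊗ Y)⟦1⟧` is the unit constraint. -/
lemma tensorShiftOne_unit (Y : T) :
    (tensorShiftOne (𝟙_ T)).hom.app Y ≫ ((λ_ Y).hom)⟦(1 : ℤ)⟧' = (λ_ (Y⟦(1 : ℤ)⟧)).hom := by
  rw [tensorShiftOne_hom_app]
  simp only [Category.assoc]
  rw [← TensorTriangulated.e_naturality, ← cancel_epi ((𝟙_ T) ◁ (TensorTriangulated.e Y).hom)]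
  rw [← MonoidalCategory.whiskerLeft_comp_assoc, Iso.hom_inv_id]
  simp

namespace UnitFib

variable {B : T} [MonObj B] (F : UnitFib B)

/-- `I ⊗ Z ⟶ Z`. -/
def d (Z : T) : F.I ⊗ Z ⟶ Z := F.i ▷ Z ≫ (λ_ Z).hom

/-- `B ⊗ Z ⟶ (I ⊗ Z)⟦1⟧`. -/
noncomputable def k (Z : T) : B ⊗ Z ⟶ (F.I ⊗ Z)⟦(1 : ℤ)⟧ := tensRδ F.δ Z

@[reassoc]
lemma d_nat {Z Z' : T} (f : Z ⟶ Z') : F.I ◁ f ≫ F.d Z' = F.d Z ≫ f := by
  unfold d
  rw [whisker_exchange_assoc, leftUnitor_naturality, Category.assoc]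

lemma k_nat {Z Z' : T} (f : Z ⟶ Z') : B ◁ f ≫ F.k Z' = F.k Z ≫ (F.I ◁ f)⟦(1 : ℤ)⟧' :=
  tensRδ_natural _ _

theorem dist_k (Z : T) : Triangle.mk (F.d Z) (unitMap B Z) (F.k Z) ∈ distTriang T := by
  refine isomorphic_distinguished _ (tensR_dist Z F.dist) _ ?_
  refine Triangle.isoMk _ _ (Iso.refl _) (λ_ Z).symm (Iso.refl _) ?_ ?_ ?_
  · change (F.i ▷ Z ≫ (λ_ Z).hom) ≫ (λ_ Z).inv = 𝟙 _ ≫ F.i ▷ Z
    simp
  · change ((λ_ Z).inv ≫ (η[B] ▷ Z)) ≫ 𝟙 _ = (λ_ Z).inv ≫ (η[B] ▷ Z)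
    simp
  · change F.k Z ≫ (𝟙 (F.I ⊗ Z))⟦(1 : ℤ)⟧' = 𝟙 _ ≫ tensRδ F.δ Z
    simp [k]

@[reassoc (attr := simp)]
lemma d_unitMap (Z : T) : F.d Z ≫ unitMap B Z = 0 :=
  comp_distTriang_mor_zero₁₂ _ (F.dist_k Z)

@[reassoc (attr := simp)]
lemma unitMap_k (Z : T) : unitMap B Z ≫ F.k Z = 0 :=
  comp_distTriang_mor_zero₂₃ _ (F.dist_k Z)

lemma i_η : F.i ≫ η[B] = 0 := comp_distTriang_mor_zero₁₂ _ F.dist

/-- shifting `d`. -/
lemma shift_d (Z : T) : (tensorShiftOne F.I).hom.app Z ≫ (F.d Z)⟦(1 : ℤ)⟧' =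
    F.d (Z⟦(1 : ℤ)⟧) := by
  unfold d
  rw [Functor.map_comp, ← Category.assoc, ← tensorShiftOne_nat, Category.assoc,
    tensorShiftOne_unit]

/-- `I ⊗ (I ⊗ … ⊗ 𝟙)`. -/
def Ip : ℕ → T
  | 0 => 𝟙_ T
  | r + 1 => F.I ⊗ Ip r

/-- the map `Ip r ⟶ 𝟙`, dropping the outermost factor first -/
def ip : ∀ r : ℕ, F.Ip r ⟶ 𝟙_ T
  | 0 => 𝟙 _
  | r + 1 => F.d (F.Ip r) ≫ ip r

/-- the stage map -/
def st (r : ℕ) : F.Ip (r + 1) ⟶ F.Ip r := F.d (F.Ip r)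

lemma st_ip (r : ℕ) : F.st r ≫ F.ip r = F.ip (r + 1) := rfl

/-- the truncation -/
noncomputable def C (r : ℕ) : T := cof (F.ip r)

/-- the unit of the truncation -/
noncomputable def u (r : ℕ) : 𝟙_ T ⟶ F.C r := cofπ (F.ip r)

/-- the boundary of the truncation -/
noncomputable def c (r : ℕ) : F.C r ⟶ (F.Ip r)⟦(1 : ℤ)⟧ := cofδ (F.ip r)

theorem tri (r : ℕ) : Triangle.mk (F.ip r) (F.u r) (F.c r) ∈ distTriang T := cof_dist _

@[reassoc (attr := simp)]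
lemma ip_u (r : ℕ) : F.ip r ≫ F.u r = 0 := comp_distTriang_mor_zero₁₂ _ (F.tri r)

@[reassoc (attr := simp)]
lemma u_c (r : ℕ) : F.u r ≫ F.c r = 0 := comp_distTriang_mor_zero₂₃ _ (F.tri r)

@[reassoc (attr := simp)]
lemma c_ip (r : ℕ) : F.c r ≫ (F.ip r)⟦(1 : ℤ)⟧' = 0 := comp_distTriang_mor_zero₃₁ _ (F.tri r)

/-- the shifted tensor power `(Ip r)⟦1⟧` -/
noncomputable abbrev K (r : ℕ) : T := (F.Ip r)⟦(1 : ℤ)⟧

/-- the shifted stage map -/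
noncomputable abbrev stK (r : ℕ) : F.K (r + 1) ⟶ F.K r := (F.st r)⟦(1 : ℤ)⟧'

/-- the shift isomorphism -/
noncomputable def shK (r : ℕ) : F.I ⊗ F.K r ≅ F.K (r + 1) := (tensorShiftOne F.I).app (F.Ip r)

/-- the shifted stage map is `d` up to the shift isomorphism -/
lemma shK_stK (r : ℕ) : (F.shK r).hom ≫ F.stK r = F.d (F.K r) := F.shift_d (F.Ip r)

lemma stK_eq (r : ℕ) : F.stK r = (F.shK r).inv ≫ F.d (F.K r) := by
  rw [← shK_stK, Iso.inv_hom_id_assoc]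

section oct

variable [IsTriangulated T]

/-- the octahedron of `ip (r + 1) = st r ≫ ip r` -/
noncomputable def oct (r : ℕ) : Triangulated.Octahedron (F.st_ip r) (F.dist_k (F.Ip r))
    (F.tri r) (F.tri (r + 1)) :=
  Triangulated.someOctahedron (F.st_ip r) (F.dist_k (F.Ip r)) (F.tri r) (F.tri (r + 1))

/-- the layer -/
noncomputable def lay (r : ℕ) : B ⊗ F.Ip r ⟶ F.C (r + 1) := (F.oct r).m₁

/-- the map of truncations -/
noncomputable def s (r : ℕ) : F.C (r + 1) ⟶ F.C r := (F.oct r).m₃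

theorem s_dist (r : ℕ) : Triangle.mk (F.lay r) (F.s r)
    (F.c r ≫ (unitMap B (F.Ip r))⟦(1 : ℤ)⟧') ∈ distTriang T := (F.oct r).mem

@[reassoc (attr := simp)]
lemma u_s (r : ℕ) : F.u (r + 1) ≫ F.s r = F.u r := (F.oct r).comm₃

@[reassoc]
lemma c_s (r : ℕ) : F.c (r + 1) ≫ (F.st r)⟦(1 : ℤ)⟧' = F.s r ≫ F.c r := (F.oct r).comm₄

@[reassoc (attr := simp)]
lemma lay_c (r : ℕ) : F.lay r ≫ F.c (r + 1) = F.k (F.Ip r) := (F.oct r).comm₂

@[reassoc]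
lemma un_lay (r : ℕ) : unitMap B (F.Ip r) ≫ F.lay r = F.ip r ≫ F.u (r + 1) := (F.oct r).comm₁

@[reassoc (attr := simp)]
lemma lay_s (r : ℕ) : F.lay r ≫ F.s r = 0 := comp_distTriang_mor_zero₁₂ _ (F.s_dist r)

end oct

/-! ### Killing -/

/-- maps to `N` are killed by `ip r` -/
def Kill (r : ℕ) (N : T) : Prop :=
  ∀ (W : T) (h : W ⟶ N), F.ip r ▷ W ≫ (λ_ W).hom ≫ h = 0

/-- `N` behaves like a `B`-module: maps to `N` are killed by `i` -/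
def BMod (N : T) : Prop := ∀ (W : T) (h : W ⟶ N), F.d W ≫ h = 0

lemma bMod_of_act (N : T) (m : B ⊗ N ⟶ N) (hm : unitMap B N ≫ m = 𝟙 _) : F.BMod N := by
  intro W h
  have h1 : h = unitMap B W ≫ B ◁ h ≫ m := by
    rw [← unitMap_nat_assoc, hm, Category.comp_id]
  rw [h1, F.d_unitMap_assoc, zero_comp]

lemma bMod_free (Y : T) : F.BMod (B ⊗ Y) :=
  F.bMod_of_act _ (mulMap B Y) (unitMap_mulMap Y)

lemma bMod_retract {N N' : T} (a : N ⟶ N') (b : N' ⟶ N) (h : a ≫ b = 𝟙 _) (hN : F.BMod N') :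
    F.BMod N := by
  intro W f
  rw [← Category.comp_id f, ← h, ← Category.assoc f, ← Category.assoc, hN, zero_comp]

lemma bMod_iso {N N' : T} (e : N ≅ N') (hN : F.BMod N') : F.BMod N :=
  F.bMod_retract e.hom e.inv e.hom_inv_id hN

lemma bMod_free_tensor (Y Z : T) : F.BMod ((B ⊗ Y) ⊗ Z) :=
  F.bMod_iso (α_ _ _ _) (F.bMod_free (Y ⊗ Z))

lemma d_whisker (Z W : T) : F.d Z ▷ W = (α_ _ _ _).hom ≫ F.d (Z ⊗ W) := by
  unfold d
  rw [comp_whiskerRight]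
  monoidal

lemma ip_succ_whisker (r : ℕ) (W : T) : F.ip (r + 1) ▷ W ≫ (λ_ W).hom =
    (α_ _ _ _).hom ≫ F.d (F.Ip r ⊗ W) ≫ F.ip r ▷ W ≫ (λ_ W).hom := by
  rw [← F.st_ip, comp_whiskerRight, Category.assoc]
  change F.d (F.Ip r) ▷ W ≫ _ = _
  rw [d_whisker, Category.assoc]

/-- the layer principle -/
lemma kill_succ {r : ℕ} {N' N N'' : T} (a : N' ⟶ N) (b : N ⟶ N'')
    (hex : ∀ (W : T) (h : W ⟶ N), h ≫ b = 0 → ∃ h' : W ⟶ N', h = h' ≫ a)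
    (h' : F.BMod N') (h'' : F.Kill r N'') : F.Kill (r + 1) N := by
  intro W h
  obtain ⟨g, hg⟩ := hex _ (F.ip r ▷ W ≫ (λ_ W).hom ≫ h) (by
    have := h'' W (h ≫ b)
    simpa only [Category.assoc] using this)
  have h1 := F.ip_succ_whisker r W
  have h2 := h' _ g
  have h3 : ((α_ F.I (F.Ip r) W).hom ≫ F.d (F.Ip r ⊗ W) ≫ F.ip r ▷ W ≫ (λ_ W).hom) ≫ h = 0 := by
    simp only [Category.assoc]
    rw [hg, reassoc_of% h2, zero_comp, comp_zero]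
  rw [← Category.assoc]
  exact (congrArg (· ≫ h) h1).trans h3

lemma kill_zero_of_isZero {N : T} (hN : IsZero N) : F.Kill 0 N := by
  intro W h
  rw [hN.eq_of_tgt h 0, comp_zero, comp_zero]

lemma isZero_C_zero : IsZero (F.C 0) := by
  have h : Triangle.mk (𝟙 (𝟙_ T)) (F.u 0) (F.c 0) ∈ distTriang T := F.tri 0
  exact isZero_cof_of_isIso h inferInstance

section kill

variable [IsTriangulated T]

/-- every map to `C r` is killed by `ip r` -/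
theorem kill_C (r : ℕ) : F.Kill r (F.C r) := by
  induction r with
  | zero => exact F.kill_zero_of_isZero F.isZero_C_zero
  | succ r ih =>
    refine F.kill_succ (F.lay r) (F.s r) ?_ (F.bMod_free _) ih
    intro W h hh
    exact Triangle.coyoneda_exact₂ _ (F.s_dist r) h hh

/-- **(L1)** the pairing of the truncation -/
theorem exists_phi (r : ℕ) : ∃ φ : F.C r ⊗ F.C r ⟶ F.C r,
    F.C r ◁ F.u r ≫ φ = (ρ_ _).hom ∧ F.u r ▷ F.C r ≫ φ = (λ_ _).hom := by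
  have hK := F.kill_C r
  -- the first extension
  have h1 : F.C r ◁ F.ip r ≫ (ρ_ (F.C r)).hom = 0 := by
    have h2 := hK (F.C r) (𝟙 _)
    rw [Category.comp_id] at h2
    have h3 : F.C r ◁ F.ip r ≫ (ρ_ (F.C r)).hom =
        (β_ _ _).hom ≫ F.ip r ▷ F.C r ≫ (λ_ (F.C r)).hom := by
      rw [← BraidedCategory.braiding_naturality_right_assoc, braiding_leftUnitor]
    rw [h3, h2, comp_zero]
  obtain ⟨φ₁, hφ₁⟩ := Vale.Agent.P251.X.yex2 (tens_dist (F.C r) (F.tri r)) (ρ_ (F.C r)).hom h1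
  -- the failure of the left unit
  have h4 : F.u r ≫ ((λ_ _).inv ≫ F.u r ▷ F.C r ≫ φ₁ - 𝟙 _) = 0 := by
    rw [Preadditive.comp_sub, sub_eq_zero, Category.comp_id]
    rw [leftUnitor_inv_naturality_assoc, whisker_exchange_assoc, ← hφ₁, rightUnitor_naturality,
      ← unitors_equal, Iso.inv_hom_id_assoc]
  obtain ⟨τ, hτ⟩ := Vale.Agent.P251.X.yex3 (F.tri r) _ h4
  obtain ⟨τ₂, hτ₂⟩ := Vale.Agent.P251.X.yex2 (tensR_dist ((F.Ip r)⟦(1 : ℤ)⟧) (F.tri r))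
    ((λ_ _).hom ≫ τ) (hK _ τ)
  refine ⟨φ₁ - F.C r ◁ F.c r ≫ τ₂, ?_, ?_⟩
  · rw [Preadditive.comp_sub, ← hφ₁, ← MonoidalCategory.whiskerLeft_comp_assoc, u_c,
      MonoidalPreadditive.whiskerLeft_zero, zero_comp, sub_zero]
  · rw [Preadditive.comp_sub, ← whisker_exchange_assoc, ← hτ₂, leftUnitor_naturality_assoc, ← hτ,
      Preadditive.comp_sub, Iso.hom_inv_id_assoc, Category.comp_id, sub_sub_cancel]

end kill

end UnitFib

end Vale.Agent.P257.V4.L
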