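import Vale.Agent.P257.V4.L.Shuf

/-!
# P257, part L (Leibniz rule), file 4: the Leibniz rule (L4)

`F : UnitFib B`, `X` with a left unital product `mX`, `C = C (n+1)`, `K r = (Ip r)⟦1⟧`.
-/

open CategoryTheory MonoidalCategory Limits Pretriangulated MonObj

set_option linter.unusedSectionVars false

universe v u

namespace Vale.Agent.P257.V4.L

open Vale.Agent.P251.T Vale.Agent.P251.S

variable {T : Type u} [Category.{v} T] [Preadditive T] [HasZeroObject T] [HasShift T ℤ]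
  [∀ n : ℤ, (shiftFunctor T n).Additive] [Pretriangulated T]
  [MonoidalCategory T] [SymmetricCategory T] [TensorTriangulated T] [IsTriangulated T]

namespace UnitFib

variable {B : T} [MonObj B] (F : UnitFib B)

section

variable {X : T} (uX : 𝟙_ T ⟶ X) (mX : X ⊗ X ⟶ X)

/-- Step 1: the product in the truncation is the unit class `b`. -/
theorem pd_phi (n : ℕ) (φ : F.C (n + 1) ⊗ F.C (n + 1) ⟶ F.C (n + 1))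
    (L2 : (φ ≫ F.pr n) ▷ X = ((F.pr n ⊗ₘ F.pr n) ≫ μ[B]) ▷ X) {W₁ W₂ : T}
    (a : W₂ ⟶ F.C (n + 1) ⊗ (F.I ⊗ X)) (v : W₁ ⟶ F.C (n + 1) ⊗ X) (b : W₂ ⊗ W₁ ⟶ F.I ⊗ X)
    (hb : pd mX F.I (a ≫ F.pr n ▷ (F.I ⊗ X)) (v ≫ F.pr n ▷ X) ≫ F.I ◁ (μ[B] ▷ X) =
      b ≫ F.I ◁ unitMap B X)
    (hi : ∀ g : W₂ ⊗ W₁ ⟶ F.I ⊗ (F.C (n + 1) ⊗ X), g ≫ F.I ◁ (F.pr n ▷ X) = 0 → g = 0) :
    pd mX F.I a v ≫ F.I ◁ (φ ▷ X) = b ≫ F.I ◁ ((λ_ X).inv ≫ F.u (n + 1) ▷ X) := by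
  rw [← sub_eq_zero]
  apply hi
  rw [Preadditive.sub_comp, sub_eq_zero, Category.assoc, Category.assoc,
    ← MonoidalCategory.whiskerLeft_comp, ← MonoidalCategory.whiskerLeft_comp,
    ← comp_whiskerRight, L2, Category.assoc, ← comp_whiskerRight, u_pr]
  change _ = b ≫ F.I ◁ unitMap B X
  rw [← hb, pd_natQ, pd_natP, tensorHom_def', comp_whiskerRight, comp_whiskerRight]
  simp only [MonoidalCategory.whiskerLeft_comp, Category.assoc]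

/-- Step 2: `Ω` dies at the previous stage. -/
theorem omega_stage (n : ℕ) (φ : F.C (n + 1) ⊗ F.C (n + 1) ⟶ F.C (n + 1))
    (ψ : (F.K (n + 1) ⊗ F.K (n + 1)) ⊗ X ⟶ (F.C (n + 1) ⊗ F.K (n + 1)) ⊗ X)
    (L3 : (φ ≫ F.c (n + 1) ≫ (λ_ _).inv ≫ F.u (n + 1) ▷ F.K (n + 1)) ▷ X =
        (F.C (n + 1) ◁ F.c (n + 1)) ▷ X +
          (F.c (n + 1) ▷ F.C (n + 1) ≫ (β_ (F.K (n + 1)) (F.C (n + 1))).hom) ▷ X +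
          (F.C (n + 1) ◁ F.c (n + 1) ≫ F.c (n + 1) ▷ F.K (n + 1)) ▷ X ≫ ψ)
    (L3' : (F.stK (n + 1) ▷ F.K (n + 1)) ▷ X ≫ ψ = 0) {W₁ W₂ : T}
    (a : W₂ ⟶ F.C (n + 1) ⊗ (F.I ⊗ X)) (v : W₁ ⟶ F.C (n + 1) ⊗ X) (b : W₂ ⊗ W₁ ⟶ F.I ⊗ X)
    (o : W₁ ⟶ F.K (n + 2) ⊗ X) (w : W₂ ⟶ F.K (n + 2) ⊗ (F.I ⊗ X))
    (hab : pd mX F.I a v ≫ F.I ◁ (φ ▷ X) = b ≫ F.I ◁ ((λ_ X).inv ≫ F.u (n + 1) ▷ X))
    (ho : o ≫ F.stK (n + 1) ▷ X = v ≫ F.c (n + 1) ▷ X)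
    (hw : w ≫ F.stK (n + 1) ▷ (F.I ⊗ X) = a ≫ F.c (n + 1) ▷ (F.I ⊗ X)) :
    (pd mX F.I a o + pd mX F.I w v ≫ F.I ◁ ((β_ (F.K (n + 2)) (F.C (n + 1))).hom ▷ X)) ≫
      F.I ◁ ((F.C (n + 1) ◁ F.stK (n + 1)) ▷ X) = 0 := by
  have e1 : pd mX F.I a o ≫ F.I ◁ ((F.C (n + 1) ◁ F.stK (n + 1)) ▷ X) =
      pd mX F.I a v ≫ F.I ◁ ((F.C (n + 1) ◁ F.c (n + 1)) ▷ X) := by
    rw [← pd_natP, ho, pd_natP]
  have e2 : (pd mX F.I w v ≫ F.I ◁ ((β_ (F.K (n + 2)) (F.C (n + 1))).hom ▷ X)) ≫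
      F.I ◁ ((F.C (n + 1) ◁ F.stK (n + 1)) ▷ X) =
      pd mX F.I a v ≫ F.I ◁ ((F.c (n + 1) ▷ F.C (n + 1) ≫
        (β_ (F.K (n + 1)) (F.C (n + 1))).hom) ▷ X) := by
    rw [Category.assoc, ← MonoidalCategory.whiskerLeft_comp, ← comp_whiskerRight,
      ← BraidedCategory.braiding_naturality_left, comp_whiskerRight,
      MonoidalCategory.whiskerLeft_comp, ← Category.assoc, ← pd_natQ, hw, pd_natQ,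
      Category.assoc, ← MonoidalCategory.whiskerLeft_comp, ← comp_whiskerRight]
  have e3 : pd mX F.I a v ≫ F.I ◁ ((F.C (n + 1) ◁ F.c (n + 1) ≫
      F.c (n + 1) ▷ F.K (n + 1)) ▷ X ≫ ψ) = 0 := by
    rw [comp_whiskerRight, Category.assoc, MonoidalCategory.whiskerLeft_comp, ← Category.assoc,
      ← pd_natP, MonoidalCategory.whiskerLeft_comp, ← Category.assoc, ← pd_natQ, ← hw, pd_natQ,
      Category.assoc, ← MonoidalCategory.whiskerLeft_comp, L3',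
      MonoidalPreadditive.whiskerLeft_zero, comp_zero]
  have e4 : pd mX F.I a v ≫ F.I ◁ ((φ ≫ F.c (n + 1) ≫ (λ_ _).inv ≫
      F.u (n + 1) ▷ F.K (n + 1)) ▷ X) = 0 := by
    rw [comp_whiskerRight, MonoidalCategory.whiskerLeft_comp, ← Category.assoc, hab,
      comp_whiskerRight, Category.assoc, ← MonoidalCategory.whiskerLeft_comp, Category.assoc,
      ← comp_whiskerRight_assoc, u_c, MonoidalPreadditive.zero_whiskerRight, zero_comp, comp_zero,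
      MonoidalPreadditive.whiskerLeft_zero, comp_zero]
  rw [Preadditive.add_comp, e1, e2, ← Preadditive.comp_add, ← MonoidalPreadditive.whiskerLeft_add]
  rw [L3, MonoidalPreadditive.whiskerLeft_add, Preadditive.comp_add, e3, add_zero] at e4
  exact e4

/-- `(I ⊗ (A ⊗ X))⟦1⟧ ≅ I ⊗ (A⟦1⟧ ⊗ X)` -/
noncomputable def bdIso (A X : T) : (F.I ⊗ (A ⊗ X))⟦(1 : ℤ)⟧ ≅ F.I ⊗ (A⟦(1 : ℤ)⟧ ⊗ X) :=
  ((tensorShiftOne F.I).app (A ⊗ X)).symm ≪≫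
    whiskerLeftIso F.I (Vale.Agent.P251.X.tensRIso A X).symm

/-- the differential `B ⊗ (A ⊗ X) ⟶ B ⊗ (I ⊗ (A⟦1⟧ ⊗ X))` -/
noncomputable def dB (A X : T) : B ⊗ (A ⊗ X) ⟶ B ⊗ (F.I ⊗ (A⟦(1 : ℤ)⟧ ⊗ X)) :=
  F.k (A ⊗ X) ≫ (F.bdIso A X).hom ≫ unitMap B _

lemma twX_unit (X I P : T) : (twX X I (𝟙_ T) P).hom ≫ I ◁ ((λ_ P).hom ▷ X) =
    (λ_ (I ⊗ (P ⊗ X))).hom := by
  simp only [twX, Iso.trans_hom, Iso.symm_hom, whiskerRightIso_hom, whiskerLeftIso_hom,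
    Category.assoc, braiding_tensorUnit_left]
  monoidal

lemma unit_twX_inv (P : T) : F.I ◁ ((η[B] ▷ P) ▷ X) ≫ (twX X F.I B P).inv =
    F.I ◁ ((λ_ P).hom ▷ X) ≫ unitMap B (F.I ⊗ (P ⊗ X)) := by
  have h1 : F.I ◁ ((λ_ P).hom ▷ X) = (twX X F.I (𝟙_ T) P).inv ≫ (λ_ (F.I ⊗ (P ⊗ X))).hom := by
    rw [← twX_unit, Iso.inv_hom_id_assoc]
  rw [Iso.comp_inv_eq, unitMap, Category.assoc, Category.assoc, twX_natQ, h1, Category.assoc,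
    Iso.hom_inv_id_assoc, Iso.inv_hom_id_assoc]

/-- `I ⊗ ((Q ⊗ A⟦1⟧) ⊗ X) ≅ (I ⊗ ((Q ⊗ A) ⊗ X))⟦1⟧` -/
noncomputable def shE (Q A X : T) :
    F.I ⊗ ((Q ⊗ A⟦(1 : ℤ)⟧) ⊗ X) ≅ (F.I ⊗ ((Q ⊗ A) ⊗ X))⟦(1 : ℤ)⟧ :=
  whiskerLeftIso F.I (shY Q A X) ≪≫ (tensorShiftOne F.I).app ((Q ⊗ A) ⊗ X)

lemma tensorShiftOne_nat' {Z Y Y' : T} (g : Y ⟶ Y') :
    Z ◁ (g⟦(1 : ℤ)⟧') ≫ (tensorShiftOne Z).hom.app Y' =
      (tensorShiftOne Z).hom.app Y ≫ (Z ◁ g)⟦(1 : ℤ)⟧' :=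
  (tensorShiftOne Z).hom.naturality g

@[reassoc]
lemma shE_nat {Q Q' : T} (f : Q ⟶ Q') (A X : T) :
    F.I ◁ ((f ▷ A⟦(1 : ℤ)⟧) ▷ X) ≫ (F.shE Q' A X).hom =
      (F.shE Q A X).hom ≫ (F.I ◁ ((f ▷ A) ▷ X))⟦(1 : ℤ)⟧' := by
  simp only [shE, Iso.trans_hom, whiskerLeftIso_hom, Category.assoc, Iso.app_hom]
  rw [← MonoidalCategory.whiskerLeft_comp_assoc, shY_nat, MonoidalCategory.whiskerLeft_comp_assoc,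
    tensorShiftOne_nat']

lemma shE_d (Q A X : T) : (F.shE Q A X).hom ≫ (F.d ((Q ⊗ A) ⊗ X))⟦(1 : ℤ)⟧' =
    F.d ((Q ⊗ A⟦(1 : ℤ)⟧) ⊗ X) ≫ (shY Q A X).hom := by
  simp only [shE, Iso.trans_hom, whiskerLeftIso_hom, Category.assoc, Iso.app_hom]
  rw [shift_d, d_nat]

lemma shE_unit (A X : T) : (F.shE (𝟙_ T) A X).hom ≫ (F.I ◁ ((λ_ A).hom ▷ X))⟦(1 : ℤ)⟧' ≫
    (F.bdIso A X).hom = F.I ◁ ((λ_ (A⟦(1 : ℤ)⟧)).hom ▷ X) := by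
  simp only [shE, bdIso, Iso.trans_hom, whiskerLeftIso_hom, Category.assoc, Iso.app_hom,
    Iso.symm_hom]
  rw [← reassoc_of% (tensorShiftOne_nat' (Z := F.I) ((λ_ A).hom ▷ X)), ← MonoidalCategory.whiskerLeft_comp_assoc, shY_unit]
  simp

/-- Step 3: a class of `I ⊗ ((C ⊗ A⟦1⟧) ⊗ X)` that dies when the factor `I` is dropped. -/
theorem exists_of_d (n : ℕ) (A : T) {W : T} (Ω : W ⟶ F.I ⊗ ((F.C (n + 1) ⊗ A⟦(1 : ℤ)⟧) ⊗ X))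
    (h : Ω ≫ F.d ((F.C (n + 1) ⊗ A⟦(1 : ℤ)⟧) ⊗ X) = 0)
    (h2 : ∀ g : W ⟶ (B ⊗ ((F.Ip (n + 1) ⊗ A) ⊗ X))⟦(1 : ℤ)⟧, g = 0) :
    ∃ f : W ⟶ B ⊗ (A ⊗ X), Ω ≫ F.I ◁ ((F.pr n ▷ A⟦(1 : ℤ)⟧) ▷ X) ≫
      (twX X F.I B (A⟦(1 : ℤ)⟧)).inv = f ≫ F.dB A X := by
  obtain ⟨f, hf⟩ := cex1 (F.dist_k ((F.C (n + 1) ⊗ A) ⊗ X)) (Ω ≫ (F.shE _ A X).hom) (by
    rw [Category.assoc, shE_d, reassoc_of% h, zero_comp])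
  obtain ⟨f₁, hf₁⟩ := cex3 (tens_dist B (tensR_dist X (tensR_dist A (F.tri (n + 1))))) f (h2 _)
  refine ⟨f₁ ≫ B ◁ ((λ_ A).hom ▷ X), ?_⟩
  have e1 : Ω ≫ F.I ◁ ((F.pr n ▷ A⟦(1 : ℤ)⟧) ▷ X) ≫ (F.shE _ A X).hom =
      f₁ ≫ F.k _ ≫ (F.I ◁ ((η[B] ▷ A) ▷ X))⟦(1 : ℤ)⟧' := by
    rw [shE_nat, reassoc_of% hf, hf₁, Category.assoc, ← k_nat, ← k_nat,
      ← MonoidalCategory.whiskerLeft_comp_assoc, ← comp_whiskerRight, ← comp_whiskerRight, u_pr]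
  have e2 : Ω ≫ F.I ◁ ((F.pr n ▷ A⟦(1 : ℤ)⟧) ▷ X) = f₁ ≫ F.k _ ≫ (F.shE _ A X).inv ≫
      F.I ◁ ((η[B] ▷ A⟦(1 : ℤ)⟧) ▷ X) := by
    rw [← cancel_mono (F.shE _ A X).hom, Category.assoc, e1]
    simp only [Category.assoc]
    rw [shE_nat, Iso.inv_hom_id_assoc]
  rw [reassoc_of% e2, unit_twX_inv, dB]
  simp only [Category.assoc]
  rw [reassoc_of% (F.k_nat ((λ_ A).hom ▷ X)), ← F.shE_unit]
  simp only [Category.assoc, Iso.inv_hom_id_assoc]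

/-- The projection `C (n+1) ⟶ B` is injective on `[W, I ⊗ (- ⊗ X)]`. -/
theorem inj_pr {W : T} (n : ℕ)
    (h : ∀ r, 1 ≤ r → r ≤ n → ∀ g : W ⟶ F.I ⊗ ((B ⊗ F.Ip r) ⊗ X), g = 0)
    (g : W ⟶ F.I ⊗ (F.C (n + 1) ⊗ X)) (hg : g ≫ F.I ◁ (F.pr n ▷ X) = 0) : g = 0 := by
  induction n with
  | zero => rwa [← cancel_mono (F.I ◁ (F.pr 0 ▷ X)), zero_comp]
  | succ n ih =>
    have h1 : g ≫ F.I ◁ (F.s (n + 1) ▷ X) = 0 := by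
      refine ih (fun r hr hr' => h r hr (by omega)) _ ?_
      rw [Category.assoc, ← MonoidalCategory.whiskerLeft_comp, ← comp_whiskerRight, s_pr, hg]
    obtain ⟨g', hg'⟩ := cex2 (tens_dist F.I (tensR_dist X (F.s_dist (n + 1)))) g h1
    rw [hg', h (n + 1) (by omega) le_rfl g', zero_comp]

/-- Step 2 and (R1): `Ω` dies when the outer factor `I` is dropped. -/
theorem d_of_stage (n : ℕ) (R1 : F.d F.I ▷ X = (F.I ◁ F.i ≫ (ρ_ _).hom) ▷ X) {W C : T}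
    (Ω : W ⟶ F.I ⊗ ((C ⊗ F.K (n + 1)) ⊗ X)) (h : Ω ≫ F.I ◁ ((C ◁ F.stK n) ▷ X) = 0) :
    Ω ≫ F.d ((C ⊗ F.K (n + 1)) ⊗ X) = 0 := by
  have h1 := F.exchange R1 (Ω ≫ F.I ◁ ((C ◁ (F.shK n).inv) ▷ X)) (by
    rw [Category.assoc, ← MonoidalCategory.whiskerLeft_comp, ← comp_whiskerRight,
      ← MonoidalCategory.whiskerLeft_comp, ← stK_eq, h])
  rw [← cancel_mono ((C ◁ (F.shK n).inv) ▷ X), zero_comp, Category.assoc, ← d_nat,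
    ← Category.assoc, h1]

/-- **The Leibniz rule (L4).** `v` and `a` are classes of the truncations `C (n+2) ⊗ X` and
`C (n+2) ⊗ (I ⊗ X)`; `o` and `w` are their boundaries. If the product of their projections to `B`
is the image of a class `b` under `I ⊗ X ⟶ B ⊗ (I ⊗ X)`, then `a · o` plus the (permuted) product
`v · w` is a `d₁`-boundary. -/
theorem leibniz (n : ℕ) (hm : uX ▷ X ≫ mX = (λ_ X).hom)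
    (v1 : ∀ f : (𝟙_ T)⟦(1 : ℤ)⟧ ⟶ B ⊗ X, f = 0)
    (v2 : ∀ f : F.K (n + 1) ⊗ F.K (n + 1) ⟶ B ⊗ X, f = 0)
    (v3 : ∀ f : (𝟙_ T)⟦(1 : ℤ)⟧ ⟶ (F.C (n + 1) ⊗ F.K (n + 1)) ⊗ X, f = 0)
    (v4 : ∀ f : F.K (n + 1) ⊗ F.K (n + 1) ⟶ (F.C n ⊗ F.K (n + 1)) ⊗ X, f = 0)
    (v5 : ∀ f : (F.I ⊗ F.I)⟦(1 : ℤ)⟧ ⟶ B ⊗ X, f = 0) {W₁ W₂ : T}
    (h1 : ∀ r, 1 ≤ r → r ≤ n → ∀ g : W₂ ⊗ W₁ ⟶ F.I ⊗ ((B ⊗ F.Ip r) ⊗ X), g = 0)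
    (h2 : ∀ g : W₂ ⊗ W₁ ⟶ (B ⊗ ((F.Ip (n + 1) ⊗ F.Ip (n + 2)) ⊗ X))⟦(1 : ℤ)⟧, g = 0)
    (a : W₂ ⟶ F.C (n + 2) ⊗ (F.I ⊗ X)) (v : W₁ ⟶ F.C (n + 2) ⊗ X) (b : W₂ ⊗ W₁ ⟶ F.I ⊗ X)
    (hb : pd mX F.I (a ≫ F.pr (n + 1) ▷ (F.I ⊗ X)) (v ≫ F.pr (n + 1) ▷ X) ≫
      F.I ◁ (μ[B] ▷ X) = b ≫ F.I ◁ unitMap B X) :
    ∃ f : W₂ ⊗ W₁ ⟶ B ⊗ (F.Ip (n + 2) ⊗ X),
      ((a ≫ F.pr (n + 1) ▷ (F.I ⊗ X)) ⊗ₘ (v ≫ F.c (n + 2) ▷ X)) ≫ mulR mX F.I B (F.K (n + 2)) +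
        pd mX F.I (a ≫ F.c (n + 2) ▷ (F.I ⊗ X)) (v ≫ F.pr (n + 1) ▷ X) ≫
          F.I ◁ ((β_ (F.K (n + 2)) B).hom ▷ X) ≫ (twX X F.I B (F.K (n + 2))).inv =
      f ≫ F.dB (F.Ip (n + 2)) X := by
  obtain ⟨φ, p1, p2⟩ := F.exists_phi (n + 1)
  have L2 := F.phi_pr uX mX n φ p1 p2 hm v1 v2
  obtain ⟨ψ, L3, L3'⟩ := F.exists_deriv uX mX n φ p1 p2 hm v3 v4
  have R1 := F.d_eq uX mX hm v5
  have pa : a ≫ F.pr (n + 1) ▷ (F.I ⊗ X) =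
      (a ≫ F.s (n + 1) ▷ (F.I ⊗ X)) ≫ F.pr n ▷ (F.I ⊗ X) := by
    rw [Category.assoc, ← comp_whiskerRight, s_pr]
  have pv : v ≫ F.pr (n + 1) ▷ X = (v ≫ F.s (n + 1) ▷ X) ≫ F.pr n ▷ X := by
    rw [Category.assoc, ← comp_whiskerRight, s_pr]
  have s1 := F.pd_phi mX n φ L2 (a ≫ F.s (n + 1) ▷ (F.I ⊗ X)) (v ≫ F.s (n + 1) ▷ X) b
    (by rw [← pa, ← pv, hb]) (fun g hg => F.inj_pr n h1 g hg)
  have s2 := F.omega_stage mX n φ ψ L3 L3' (a ≫ F.s (n + 1) ▷ (F.I ⊗ X))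
    (v ≫ F.s (n + 1) ▷ X) b (v ≫ F.c (n + 2) ▷ X) (a ≫ F.c (n + 2) ▷ (F.I ⊗ X)) s1
    (by rw [Category.assoc, Category.assoc, ← comp_whiskerRight, ← comp_whiskerRight, c_s])
    (by rw [Category.assoc, Category.assoc, ← comp_whiskerRight, ← comp_whiskerRight, c_s])
  obtain ⟨f, hf⟩ := F.exists_of_d n (F.Ip (n + 2)) _ (F.d_of_stage (n + 1) R1 _ s2) h2
  refine ⟨f, ?_⟩
  rw [← hf, Preadditive.add_comp]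
  congr 1
  · rw [← Category.assoc, ← pd_natQ, ← pa, pd, sh]
    simp only [Category.assoc, Iso.hom_inv_id, Category.comp_id]
  · simp only [Category.assoc]
    rw [← MonoidalCategory.whiskerLeft_comp_assoc, ← comp_whiskerRight,
      ← BraidedCategory.braiding_naturality_right, comp_whiskerRight,
      MonoidalCategory.whiskerLeft_comp_assoc, pv, pd_natP]
    simp only [Category.assoc]

end

end UnitFib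

end Vale.Agent.P257.V4.L
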