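import Vale.Agent.P257.V4.L.Deriv
import Vale.Agent.P251.S.TowerR

/-!
# P257, part L (Leibniz rule), file 3: (L4), in the form of the landed tower

`U : UnitCof R` (`R ⟶ J ⟶ S¹`, `S¹ = 𝟙⟦1⟧`), `F : UnitFib R`, `X` with a left unital product.

* `prd m x y : W₂ ⊗ W₁ ⟶ (A ⊗ A') ⊗ Y` for `x : W₂ ⟶ A ⊗ Y`, `y : W₁ ⟶ A' ⊗ X`, `m : Y ⊗ X ⟶ Y`;
* `UnitFib.leib`: the Leibniz rule.
-/

open CategoryTheory MonoidalCategory Limits Pretriangulated MonObj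

set_option linter.unusedSectionVars false

universe v u

namespace Vale.Agent.P257.V4.L

open Vale.Agent.P251.T Vale.Agent.P251.S

section prd

variable {T : Type u} [Category.{v} T] [Preadditive T] [MonoidalCategory T] [SymmetricCategory T]
  [MonoidalPreadditive T]

/-- The product of `x : W₂ ⟶ A ⊗ Y` and `y : W₁ ⟶ A' ⊗ X`. -/
def prd {W₂ W₁ A A' Y X Z : T} (m : Y ⊗ X ⟶ Z) (x : W₂ ⟶ A ⊗ Y) (y : W₁ ⟶ A' ⊗ X) :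
    W₂ ⊗ W₁ ⟶ (A ⊗ A') ⊗ Z :=
  (x ⊗ₘ y) ≫ tensorμ A Y A' X ≫ (A ⊗ A') ◁ m

lemma prd_comp {W₂ W₁ A A' D D' Y X Z : T} (m : Y ⊗ X ⟶ Z) (x : W₂ ⟶ A ⊗ Y) (y : W₁ ⟶ A' ⊗ X)
    (f : A ⟶ D) (g : A' ⟶ D') :
    prd m (x ≫ f ▷ Y) (y ≫ g ▷ X) = prd m x y ≫ (f ⊗ₘ g) ▷ Z := by
  unfold prd
  have h := tensorμ_natural f (𝟙 Y) g (𝟙 X)
  rw [tensorHom_id, tensorHom_id, id_tensorHom_id, tensorHom_id] at h
  rw [← tensorHom_comp_tensorHom]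
  simp only [Category.assoc]
  rw [reassoc_of% h, whisker_exchange]

lemma prd_comp_left {W₂ W₁ A A' D Y X Z : T} (m : Y ⊗ X ⟶ Z) (x : W₂ ⟶ A ⊗ Y)
    (y : W₁ ⟶ A' ⊗ X) (f : A ⟶ D) :
    prd m (x ≫ f ▷ Y) y = prd m x y ≫ (f ▷ A') ▷ Z := by
  have h := prd_comp m x y f (𝟙 A')
  rwa [id_whiskerRight, Category.comp_id, tensorHom_id] at h

lemma prd_comp_right {W₂ W₁ A A' D' Y X Z : T} (m : Y ⊗ X ⟶ Z) (x : W₂ ⟶ A ⊗ Y)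
    (y : W₁ ⟶ A' ⊗ X) (g : A' ⟶ D') :
    prd m x (y ≫ g ▷ X) = prd m x y ≫ (A ◁ g) ▷ Z := by
  have h := prd_comp m x y (𝟙 A) g
  rwa [id_whiskerRight, Category.comp_id, id_tensorHom] at h

/-- `M ⊗ (A ⊗ X) ≅ (M ⊗ X) ⊗ A` -/
def twJ (M A X : T) : M ⊗ (A ⊗ X) ≅ (M ⊗ X) ⊗ A :=
  whiskerLeftIso M (β_ A X) ≪≫ (α_ M X A).symm

lemma twJ_nat {M N : T} (f : M ⟶ N) (A X : T) :
    f ▷ (A ⊗ X) ≫ (twJ N A X).hom = (twJ M A X).hom ≫ (f ▷ X) ▷ A := by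
  change f ▷ (A ⊗ X) ≫ N ◁ (β_ A X).hom ≫ (α_ N X A).inv =
    (M ◁ (β_ A X).hom ≫ (α_ M X A).inv) ≫ (f ▷ X) ▷ A
  rw [Category.assoc, ← associator_inv_naturality_left, whisker_exchange_assoc]

lemma whisker_tensor_eqJ {M N X : T} {f g : M ⟶ N} (A : T) (h : f ▷ X = g ▷ X) :
    f ▷ (A ⊗ X) = g ▷ (A ⊗ X) := by
  rw [← cancel_mono (twJ N A X).hom, twJ_nat, twJ_nat, h]

/-- The derivation formula with coefficients `A ⊗ X`. -/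
lemma deriv_tensor {C K K' X : T} (φ : C ⊗ C ⟶ C) (u : 𝟙_ T ⟶ C) (c : C ⟶ K) (st : K' ⟶ K)
    (A : T)
    (h : ∃ ψ : (K ⊗ K) ⊗ X ⟶ (C ⊗ K) ⊗ X,
      (φ ≫ c ≫ (λ_ K).inv ≫ u ▷ K) ▷ X = (C ◁ c) ▷ X + (c ▷ C ≫ (β_ K C).hom) ▷ X +
        (C ◁ c ≫ c ▷ K) ▷ X ≫ ψ ∧ (st ▷ K) ▷ X ≫ ψ = 0) :
    ∃ ψ : (K ⊗ K) ⊗ (A ⊗ X) ⟶ (C ⊗ K) ⊗ (A ⊗ X),
      (φ ≫ c ≫ (λ_ K).inv ≫ u ▷ K) ▷ (A ⊗ X) = (C ◁ c) ▷ (A ⊗ X) +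
        (c ▷ C ≫ (β_ K C).hom) ▷ (A ⊗ X) + (C ◁ c ≫ c ▷ K) ▷ (A ⊗ X) ≫ ψ ∧
      (st ▷ K) ▷ (A ⊗ X) ≫ ψ = 0 := by
  obtain ⟨ψ, h1, h2⟩ := h
  refine ⟨(twJ _ A X).hom ≫ ψ ▷ A ≫ (twJ _ A X).inv, ?_, ?_⟩
  · have e : ∀ {M N : T} (f : M ⟶ N), f ▷ (A ⊗ X) =
        (twJ M A X).hom ≫ (f ▷ X) ▷ A ≫ (twJ N A X).inv := by
      intro M N f
      rw [← reassoc_of% (twJ_nat f A X), Iso.hom_inv_id, Category.comp_id]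
    rw [e (φ ≫ _), e (C ◁ c), e (c ▷ C ≫ _), e (C ◁ c ≫ _), h1]
    simp only [MonoidalPreadditive.add_whiskerRight, Preadditive.comp_add, Preadditive.add_comp,
      Category.assoc, Iso.inv_hom_id_assoc, comp_whiskerRight]
  · rw [← Category.assoc, twJ_nat, Category.assoc, ← comp_whiskerRight_assoc, h2,
      MonoidalPreadditive.zero_whiskerRight, zero_comp, comp_zero]

/-- The boundary of a product, one stage further. -/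
theorem omega_st {C C' K K' X Y : T} (φ : C ⊗ C ⟶ C) (u : 𝟙_ T ⟶ C) (c : C ⟶ K) (s : C' ⟶ C)
    (c' : C' ⟶ K') (st : K' ⟶ K) (hc : c' ≫ st = s ≫ c) (m : Y ⊗ X ⟶ Y)
    (h : ∃ ψ : (K ⊗ K) ⊗ Y ⟶ (C ⊗ K) ⊗ Y,
      (φ ≫ c ≫ (λ_ K).inv ≫ u ▷ K) ▷ Y = (C ◁ c) ▷ Y + (c ▷ C ≫ (β_ K C).hom) ▷ Y +
        (C ◁ c ≫ c ▷ K) ▷ Y ≫ ψ ∧ (st ▷ K) ▷ Y ≫ ψ = 0)
    {W₁ W₂ : T} (vt : W₁ ⟶ C' ⊗ X) (at' : W₂ ⟶ C' ⊗ Y) :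
    prd m (at' ≫ s ▷ Y) (vt ≫ s ▷ X) ≫ φ ▷ Y ≫ (c ≫ (λ_ K).inv ≫ u ▷ K) ▷ Y =
      (prd m (at' ≫ s ▷ Y) (vt ≫ c' ▷ X) +
        prd m (at' ≫ c' ▷ Y) (vt ≫ s ▷ X) ≫ (β_ K' C).hom ▷ Y) ≫ (C ◁ st) ▷ Y := by
  obtain ⟨ψ, h1, h2⟩ := h
  have e1 : prd m (at' ≫ s ▷ Y) (vt ≫ s ▷ X) ≫ (C ◁ c) ▷ Y =
      prd m (at' ≫ s ▷ Y) (vt ≫ c' ▷ X) ≫ (C ◁ st) ▷ Y := by
    rw [← prd_comp_right, ← prd_comp_right]
    simp only [Category.assoc, ← comp_whiskerRight, hc]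
  have e2 : prd m (at' ≫ s ▷ Y) (vt ≫ s ▷ X) ≫ (c ▷ C) ▷ Y =
      prd m (at' ≫ c' ▷ Y) (vt ≫ s ▷ X) ≫ (st ▷ C) ▷ Y := by
    rw [← prd_comp_left, ← prd_comp_left]
    simp only [Category.assoc, ← comp_whiskerRight, hc]
  have e3 : prd m (at' ≫ s ▷ Y) (vt ≫ s ▷ X) ≫ (C ◁ c ≫ c ▷ K) ▷ Y ≫ ψ = 0 := by
    have e4 : prd m (at' ≫ s ▷ Y) (vt ≫ s ▷ X) ≫ (C ◁ c ≫ c ▷ K) ▷ Y =
        prd m (at' ≫ c' ▷ Y) (vt ≫ c' ▷ X) ≫ (K' ◁ st ≫ st ▷ K) ▷ Y := by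
      rw [comp_whiskerRight, comp_whiskerRight, ← reassoc_of% prd_comp_right,
        ← reassoc_of% prd_comp_right, ← prd_comp_left, ← prd_comp_left]
      simp only [Category.assoc, ← comp_whiskerRight, hc]
    rw [← Category.assoc, e4, Category.assoc, comp_whiskerRight, Category.assoc, h2, comp_zero,
      comp_zero]
  rw [← comp_whiskerRight, h1, Preadditive.comp_add, Preadditive.comp_add, e1, e3, add_zero,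
    comp_whiskerRight, reassoc_of% e2, Preadditive.add_comp, Category.assoc]
  congr 2
  rw [← comp_whiskerRight, ← comp_whiskerRight, BraidedCategory.braiding_naturality_left]

/-- `(I ⊗ K) ⊗ (A ⊗ X) ≅ K ⊗ ((A ⊗ I) ⊗ X)` -/
def sg (I K A X : T) : (I ⊗ K) ⊗ (A ⊗ X) ≅ K ⊗ ((A ⊗ I) ⊗ X) :=
  whiskerRightIso (β_ I K) (A ⊗ X) ≪≫ α_ K I (A ⊗ X) ≪≫ whiskerLeftIso K (α_ I A X).symm ≪≫
    whiskerLeftIso K (whiskerRightIso (β_ I A) X)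

lemma sg_hom (I K A X : T) : (sg I K A X).hom = (β_ I K).hom ▷ (A ⊗ X) ≫ (α_ K I (A ⊗ X)).hom ≫
    K ◁ (α_ I A X).inv ≫ K ◁ ((β_ I A).hom ▷ X) := rfl

lemma sg_nat_A (I K : T) {A A' : T} (g : A ⟶ A') (X : T) :
    (I ⊗ K) ◁ (g ▷ X) ≫ (sg I K A' X).hom = (sg I K A X).hom ≫ K ◁ ((g ▷ I) ▷ X) := by
  rw [sg_hom, sg_hom, whisker_exchange_assoc, associator_naturality_right_assoc]
  simp only [Category.assoc, ← MonoidalCategory.whiskerLeft_comp]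
  rw [associator_inv_naturality_middle_assoc, ← comp_whiskerRight,
    BraidedCategory.braiding_naturality_right, comp_whiskerRight]

lemma sg_nat_I {I I' : T} (g : I ⟶ I') (K A X : T) :
    (g ▷ K) ▷ (A ⊗ X) ≫ (sg I' K A X).hom = (sg I K A X).hom ≫ K ◁ ((A ◁ g) ▷ X) := by
  rw [sg_hom, sg_hom, ← comp_whiskerRight_assoc, BraidedCategory.braiding_naturality_left,
    comp_whiskerRight_assoc, associator_naturality_middle_assoc]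
  simp only [Category.assoc, ← MonoidalCategory.whiskerLeft_comp]
  rw [associator_inv_naturality_left_assoc, ← comp_whiskerRight,
    BraidedCategory.braiding_naturality_left, comp_whiskerRight]

lemma sg_unit (K A X : T) : (sg (𝟙_ T) K A X).hom ≫ K ◁ ((ρ_ A).hom ▷ X) =
    (λ_ K).hom ▷ (A ⊗ X) := by
  rw [sg_hom, braiding_tensorUnit_left, braiding_tensorUnit_left]
  monoidal

end prd

variable {T : Type u} [Category.{v} T] [Preadditive T] [HasZeroObject T] [HasShift T ℤ]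
  [∀ n : ℤ, (shiftFunctor T n).Additive] [Pretriangulated T]
  [MonoidalCategory T] [SymmetricCategory T] [TensorTriangulated T] [IsTriangulated T]

/-- `S¹ ⊗ Y ≅ Y⟦1⟧` -/
noncomputable def sI (Y : T) : ((𝟙_ T)⟦(1 : ℤ)⟧) ⊗ Y ≅ Y⟦(1 : ℤ)⟧ :=
  β_ _ _ ≪≫ TensorTriangulated.e Y

lemma sI_hom (Y : T) : (sI Y).hom = sOne Y := rfl

lemma sOne_unit : sOne (𝟙_ T) = (ρ_ _).hom := by
  rw [sOne, TensorTriangulated.e_unit, braiding_leftUnitor]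

namespace UnitFib

variable {R : T} [MonObj R] (F : UnitFib R) (U : UnitCof R)

/-- `S¹ ⊗ I ≅ J` -/
theorem exists_jIso : ∃ j : ((𝟙_ T)⟦(1 : ℤ)⟧) ⊗ F.I ≅ U.J,
    j.hom ≫ U.δ = ((𝟙_ T)⟦(1 : ℤ)⟧) ◁ F.i ≫ (ρ_ _).hom := by
  have h1 : Triangle.mk η[R] F.δ (-(F.i⟦(1 : ℤ)⟧')) ∈ distTriang T := rot_of_distTriang _ F.dist
  obtain ⟨z, hz1, hz2⟩ := Vale.Agent.P251.X.tr3 h1 U.dist (𝟙 _) (𝟙 _) (by
    rw [Category.comp_id, Category.id_comp])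
  rw [CategoryTheory.Functor.map_id, Category.comp_id] at hz2
  have hiso : IsIso z := by
    let φ : Triangle.mk η[R] F.δ (-(F.i⟦(1 : ℤ)⟧')) ⟶ Triangle.mk η[R] U.ρ U.δ :=
      { hom₁ := 𝟙 _
        hom₂ := 𝟙 _
        hom₃ := z
        comm₁ := (Category.comp_id _).trans (Category.id_comp _).symm
        comm₂ := hz1
        comm₃ := (congrArg ((-(F.i⟦(1 : ℤ)⟧')) ≫ ·) (CategoryTheory.Functor.map_id _ _)).trans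
          ((Category.comp_id _).trans hz2) }
    exact isIso₃_of_isIso₁₂ φ h1 U.dist (inferInstanceAs (IsIso (𝟙 _)))
      (inferInstanceAs (IsIso (𝟙 _)))
  have hn : IsIso (-z) := ⟨⟨-(CategoryTheory.inv z), by simp, by simp⟩⟩
  refine ⟨(sI F.I).trans (asIso (-z)), ?_⟩
  change (sOne F.I ≫ (-z)) ≫ U.δ = _
  rw [Category.assoc, Preadditive.neg_comp, ← hz2, neg_neg, ← sOne_nat, sOne_unit]

variable {U} in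
/-- **(R1)** for `J`: after tensoring with `X`, one may drop `I` or `J`. -/
theorem dJ_eq {X : T} (uX : 𝟙_ T ⟶ X) (mX : X ⊗ X ⟶ X) (hm : uX ▷ X ≫ mX = (λ_ X).hom)
    (j : ((𝟙_ T)⟦(1 : ℤ)⟧) ⊗ F.I ≅ U.J)
    (hj : j.hom ≫ U.δ = ((𝟙_ T)⟦(1 : ℤ)⟧) ◁ F.i ≫ (ρ_ _).hom)
    (v : ∀ f : U.J ⊗ F.I ⟶ R ⊗ X, f = 0) :
    (U.J ◁ F.i ≫ (ρ_ U.J).hom) ▷ X = (U.δ ▷ F.I ≫ j.hom) ▷ X := by
  set D : U.J ⊗ F.I ⟶ U.J := U.J ◁ F.i ≫ (ρ_ U.J).hom - U.δ ▷ F.I ≫ j.hom with hD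
  have h1 : D ≫ U.δ = 0 := by
    rw [hD, Preadditive.sub_comp, sub_eq_zero, Category.assoc, Category.assoc, hj,
      ← rightUnitor_naturality, whisker_exchange_assoc]
  have h3 : D ≫ insR uX U.J = 0 := by
    obtain ⟨b, hb⟩ := cex3 (tensR_dist X U.dist) (D ≫ insR uX U.J) (by
      rw [Vale.Agent.P251.X.tensRδ_eq, Category.assoc, ← insR_nat_assoc, reassoc_of% h1,
        zero_comp])
    rw [hb, v b, zero_comp]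
  rw [whisker_eq_extR uX mX hm (U.J ◁ F.i ≫ _), whisker_eq_extR uX mX hm (U.δ ▷ F.I ≫ _)]
  rw [hD, Preadditive.sub_comp] at h3
  rw [sub_eq_zero.1 h3]

variable {U} in
/-- The exchange: `δ` on the factor `J` factors through the stage map. -/
theorem exists_exch {X : T} (n : ℕ) (j : ((𝟙_ T)⟦(1 : ℤ)⟧) ⊗ F.I ≅ U.J)
    (h : (U.J ◁ F.i ≫ (ρ_ U.J).hom) ▷ X = (U.δ ▷ F.I ≫ j.hom) ▷ X) :
    ∃ θ : F.K n ⊗ (U.J ⊗ X) ⟶ F.K (n + 1) ⊗ (((𝟙_ T)⟦(1 : ℤ)⟧) ⊗ X),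
      F.K (n + 1) ◁ (U.δ ▷ X) = F.stK n ▷ (U.J ⊗ X) ≫ θ := by
  refine ⟨F.K n ◁ (j.inv ▷ X) ≫ (sg F.I (F.K n) _ X).inv ≫ (F.shK n).hom ▷ _, ?_⟩
  have h1 : F.d (F.K n) ▷ (U.J ⊗ X) =
      (sg F.I (F.K n) U.J X).hom ≫ F.K n ◁ ((U.J ◁ F.i ≫ (ρ_ U.J).hom) ▷ X) := by
    unfold d
    rw [comp_whiskerRight, ← sg_unit, ← Category.assoc, sg_nat_I, Category.assoc,
      ← MonoidalCategory.whiskerLeft_comp, ← comp_whiskerRight]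
  have h2 : F.K n ◁ ((U.J ◁ F.i ≫ (ρ_ U.J).hom) ▷ X) ≫ F.K n ◁ (j.inv ▷ X) =
      F.K n ◁ ((U.δ ▷ F.I) ▷ X) := by
    rw [h, ← MonoidalCategory.whiskerLeft_comp, ← comp_whiskerRight, Category.assoc,
      Iso.hom_inv_id, Category.comp_id]
  rw [stK_eq, comp_whiskerRight, Category.assoc, h1, Category.assoc, reassoc_of% h2,
    ← reassoc_of% (sg_nat_A F.I (F.K n) U.δ X), Iso.hom_inv_id_assoc, whisker_exchange,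
    ← comp_whiskerRight_assoc, Iso.inv_hom_id, id_whiskerRight, Category.id_comp]

lemma tri_rot (r : ℕ) : Triangle.mk (F.u r) (F.c r) (-((F.ip r)⟦(1 : ℤ)⟧')) ∈ distTriang T :=
  rot_of_distTriang _ (F.tri r)

variable {U} in
/-- **(L4)** The Leibniz rule. Here `n + 1 = q`, the products are `prd m`, the class of `v` is
`vt ≫ pr`, its obstruction is `vt ≫ c`, and the same for `a`. -/
theorem leib {X : T} (n : ℕ) (φ : F.C (n + 1) ⊗ F.C (n + 1) ⟶ F.C (n + 1))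
    (hL2 : (φ ≫ F.pr n) ▷ X = ((F.pr n ⊗ₘ F.pr n) ≫ μ[R]) ▷ X)
    (hL3 : ∃ ψ : (F.K (n + 1) ⊗ F.K (n + 1)) ⊗ X ⟶ (F.C (n + 1) ⊗ F.K (n + 1)) ⊗ X,
      (φ ≫ F.c (n + 1) ≫ (λ_ _).inv ≫ F.u (n + 1) ▷ F.K (n + 1)) ▷ X =
        (F.C (n + 1) ◁ F.c (n + 1)) ▷ X +
          (F.c (n + 1) ▷ F.C (n + 1) ≫ (β_ (F.K (n + 1)) (F.C (n + 1))).hom) ▷ X +
          (F.C (n + 1) ◁ F.c (n + 1) ≫ F.c (n + 1) ▷ F.K (n + 1)) ▷ X ≫ ψ ∧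
      (F.stK (n + 1) ▷ F.K (n + 1)) ▷ X ≫ ψ = 0)
    (j : ((𝟙_ T)⟦(1 : ℤ)⟧) ⊗ F.I ≅ U.J)
    (hR1 : (U.J ◁ F.i ≫ (ρ_ U.J).hom) ▷ X = (U.δ ▷ F.I ≫ j.hom) ▷ X)
    (m : (U.J ⊗ X) ⊗ X ⟶ U.J ⊗ X) {W₁ W₂ : T} (vt : W₁ ⟶ F.C (n + 2) ⊗ X)
    (at' : W₂ ⟶ F.C (n + 2) ⊗ (U.J ⊗ X)) (b : W₂ ⊗ W₁ ⟶ U.J ⊗ X)
    (hb : prd m (at' ≫ F.pr (n + 1) ▷ _) (vt ≫ F.pr (n + 1) ▷ X) ≫ μ[R] ▷ (U.J ⊗ X) =
      b ≫ unitMap R (U.J ⊗ X))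
    (hinj : ∀ z : W₂ ⊗ W₁ ⟶ F.C (n + 1) ⊗ (U.J ⊗ X), z ≫ F.pr n ▷ _ = 0 → z = 0)
    (hf : ∀ f : W₂ ⊗ W₁ ⟶ (F.K (n + 1) ⊗ F.K (n + 2)) ⊗ (R ⊗ X), f = 0) :
    ∃ f₀ : W₂ ⊗ W₁ ⟶ F.K (n + 2) ⊗ (R ⊗ X),
      prd m (at' ≫ F.pr (n + 1) ▷ _) (vt ≫ F.c (n + 2) ▷ X) +
        prd m (at' ≫ F.c (n + 2) ▷ _) (vt ≫ F.pr (n + 1) ▷ X) ≫
          (β_ (F.K (n + 2)) R).hom ▷ (U.J ⊗ X) =
      f₀ ≫ F.K (n + 2) ◁ (U.ρ ▷ X) ≫ unitMap R (F.K (n + 2)) ▷ (U.J ⊗ X) := by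
  have hL3' := deriv_tensor φ (F.u (n + 1)) (F.c (n + 1)) (F.stK (n + 1)) U.J hL3
  have hL2' := whisker_tensor_eqJ U.J hL2
  have hom := omega_st φ (F.u (n + 1)) (F.c (n + 1)) (F.s (n + 1)) (F.c (n + 2))
    (F.stK (n + 1)) (F.c_s (n + 1)) m hL3' vt at'
  set z : W₂ ⊗ W₁ ⟶ F.C (n + 1) ⊗ (U.J ⊗ X) :=
    prd m (at' ≫ F.s (n + 1) ▷ _) (vt ≫ F.s (n + 1) ▷ X) ≫ φ ▷ (U.J ⊗ X) with hz
  set Ω : W₂ ⊗ W₁ ⟶ (F.C (n + 1) ⊗ F.K (n + 2)) ⊗ (U.J ⊗ X) :=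
    prd m (at' ≫ F.s (n + 1) ▷ _) (vt ≫ F.c (n + 2) ▷ X) +
        prd m (at' ≫ F.c (n + 2) ▷ _) (vt ≫ F.s (n + 1) ▷ X) ≫
          (β_ (F.K (n + 2)) (F.C (n + 1))).hom ▷ (U.J ⊗ X) with hΩ
  -- the product is `b ≫ u`
  have hz1 : z ≫ F.pr n ▷ (U.J ⊗ X) = b ≫ unitMap R (U.J ⊗ X) := by
    rw [hz, Category.assoc, ← comp_whiskerRight, hL2', comp_whiskerRight,
      ← Category.assoc, ← prd_comp, ← hb]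
    simp only [Category.assoc, ← comp_whiskerRight, s_pr]
  have hz2 : z = b ≫ (λ_ _).inv ≫ F.u (n + 1) ▷ (U.J ⊗ X) := by
    rw [← sub_eq_zero]
    apply hinj
    rw [Preadditive.sub_comp, hz1, sub_eq_zero]
    simp only [Category.assoc, ← comp_whiskerRight, u_pr]
    rfl
  have hz3 : z ≫ (F.c (n + 1) ≫ (λ_ _).inv ≫ F.u (n + 1) ▷ F.K (n + 1)) ▷ (U.J ⊗ X) = 0 := by
    rw [hz2, comp_whiskerRight]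
    simp only [Category.assoc]
    rw [← comp_whiskerRight_assoc _ (F.c (n + 1)), u_c, MonoidalPreadditive.zero_whiskerRight,
      zero_comp, comp_zero, comp_zero]
  have hΩ1 : Ω ≫ (F.C (n + 1) ◁ F.stK (n + 1)) ▷ (U.J ⊗ X) = 0 := by
    rw [← hz3, hz, Category.assoc]
    exact hom.symm
  -- the exchange
  obtain ⟨θ, hθ⟩ := F.exists_exch (n + 1) j hR1
  have hΩ2 : Ω ≫ (F.C (n + 1) ⊗ F.K (n + 2)) ◁ (U.δ ▷ X) = 0 := by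
    have h1 : (F.C (n + 1) ⊗ F.K (n + 2)) ◁ (U.δ ▷ X) =
        (F.C (n + 1) ◁ F.stK (n + 1)) ▷ (U.J ⊗ X) ≫ (α_ _ _ _).hom ≫ F.C (n + 1) ◁ θ ≫
          (α_ _ _ _).inv := by
      rw [tensor_whiskerLeft, hθ, MonoidalCategory.whiskerLeft_comp, whisker_assoc]
      simp only [Category.assoc, Iso.inv_hom_id_assoc]
    rw [h1, ← Category.assoc, hΩ1, zero_comp]
  -- the element `f`
  obtain ⟨f, hf1⟩ : ∃ f : W₂ ⊗ W₁ ⟶ (F.C (n + 1) ⊗ F.K (n + 2)) ⊗ (R ⊗ X),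
      Ω = f ≫ (F.C (n + 1) ⊗ F.K (n + 2)) ◁ (U.ρ ▷ X) := by
    refine cex3 (tens_dist (F.C (n + 1) ⊗ F.K (n + 2)) (tensR_dist X U.dist)) Ω ?_
    rw [Vale.Agent.P251.X.tensRδ_eq]
    unfold tensδ
    rw [MonoidalCategory.whiskerLeft_comp, Category.assoc, ← Category.assoc, hΩ2, zero_comp]
  obtain ⟨f₀, hf2⟩ : ∃ f₀ : W₂ ⊗ W₁ ⟶ F.K (n + 2) ⊗ (R ⊗ X),
      f = f₀ ≫ ((λ_ _).inv ≫ F.u (n + 1) ▷ F.K (n + 2)) ▷ (R ⊗ X) := by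
    obtain ⟨g, hg⟩ := cex2 (tensR_dist (R ⊗ X) (tensR_dist (F.K (n + 2))
      (F.tri_rot (n + 1)))) f (hf _)
    refine ⟨g ≫ (λ_ (F.K (n + 2))).hom ▷ (R ⊗ X), ?_⟩
    rw [hg, Category.assoc, ← comp_whiskerRight, Iso.hom_inv_id_assoc]
  refine ⟨f₀, ?_⟩
  have e1 : prd m (at' ≫ F.s (n + 1) ▷ _) (vt ≫ F.c (n + 2) ▷ X) ≫
      (F.pr n ▷ F.K (n + 2)) ▷ (U.J ⊗ X) =
      prd m (at' ≫ F.pr (n + 1) ▷ _) (vt ≫ F.c (n + 2) ▷ X) := by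
    rw [← prd_comp_left, Category.assoc, ← comp_whiskerRight, s_pr]
  have e2 : (prd m (at' ≫ F.c (n + 2) ▷ _) (vt ≫ F.s (n + 1) ▷ X) ≫
      (β_ (F.K (n + 2)) (F.C (n + 1))).hom ▷ (U.J ⊗ X)) ≫
        (F.pr n ▷ F.K (n + 2)) ▷ (U.J ⊗ X) =
      prd m (at' ≫ F.c (n + 2) ▷ _) (vt ≫ F.pr (n + 1) ▷ X) ≫
        (β_ (F.K (n + 2)) R).hom ▷ (U.J ⊗ X) := by
    rw [Category.assoc, ← comp_whiskerRight, ← BraidedCategory.braiding_naturality_right,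
      comp_whiskerRight, ← Category.assoc, ← prd_comp_right, Category.assoc, ← comp_whiskerRight,
      s_pr]
  have hlhs : Ω ≫ (F.pr n ▷ F.K (n + 2)) ▷ (U.J ⊗ X) =
      prd m (at' ≫ F.pr (n + 1) ▷ _) (vt ≫ F.c (n + 2) ▷ X) +
        prd m (at' ≫ F.c (n + 2) ▷ _) (vt ≫ F.pr (n + 1) ▷ X) ≫
          (β_ (F.K (n + 2)) R).hom ▷ (U.J ⊗ X) := by
    rw [hΩ, Preadditive.add_comp, e1, e2]
  have e3 : ((λ_ (F.K (n + 2))).inv ≫ F.u (n + 1) ▷ F.K (n + 2)) ▷ (U.J ⊗ X) ≫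
      (F.pr n ▷ F.K (n + 2)) ▷ (U.J ⊗ X) = unitMap R (F.K (n + 2)) ▷ (U.J ⊗ X) := by
    rw [← comp_whiskerRight, Category.assoc, ← comp_whiskerRight, u_pr]
    rfl
  rw [← hlhs, hf1, hf2, Category.assoc, Category.assoc, ← whisker_exchange_assoc, e3]

end UnitFib

end Vale.Agent.P257.V4.L
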