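import Vale.Agent.P257.V4.L.Deriv

/-!
# P257, part L (Leibniz rule), file 3: the shuffles of factors

* `act mX P : X ⊗ (P ⊗ X) ⟶ P ⊗ X`, `mulR mX I Q P : (Q ⊗ (I ⊗ X)) ⊗ (P ⊗ X) ⟶ Q ⊗ (I ⊗ (P ⊗ X))`
  (the product of an outer and an inner factor), `mulR_eq` : it is `Q ◁ (I ◁ (.. act ..))`;
* `twX X I Q P : Q ⊗ (I ⊗ (P ⊗ X)) ≅ I ⊗ ((Q ⊗ P) ⊗ X)`, `sh = mulR ≫ twX`;
* `tth`: `D ⊗ ((C ⊗ (E ⊗ K)) ⊗ X) ≅ (C ⊗ K) ⊗ ((D ⊗ E) ⊗ X)`, `UnitFib.exchange` (use of (R1));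
* `shY Q A X : (Q ⊗ A⟦1⟧) ⊗ X ≅ ((Q ⊗ A) ⊗ X)⟦1⟧`.
-/

open CategoryTheory MonoidalCategory Limits Pretriangulated MonObj

set_option linter.unusedSectionVars false

universe v u

namespace Vale.Agent.P257.V4.L

open Vale.Agent.P251.T Vale.Agent.P251.S

section shuffle

variable {T : Type u} [Category.{v} T] [MonoidalCategory T] [SymmetricCategory T]

section act

variable {X : T} (mX : X ⊗ X ⟶ X) (I : T)

/-- `X ⊗ (P ⊗ X) ⟶ P ⊗ X` -/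
def act (P : T) : X ⊗ (P ⊗ X) ⟶ P ⊗ X :=
  (α_ X P X).inv ≫ (β_ X P).hom ▷ X ≫ (α_ P X X).hom ≫ P ◁ mX

@[reassoc]
lemma act_nat {P P' : T} (f : P ⟶ P') : X ◁ (f ▷ X) ≫ act mX P' = act mX P ≫ f ▷ X := by
  simp only [act, Category.assoc]
  rw [associator_inv_naturality_middle_assoc, ← comp_whiskerRight_assoc,
    BraidedCategory.braiding_naturality_right, comp_whiskerRight_assoc,
    associator_naturality_left_assoc, whisker_exchange]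

/-- `(Q ⊗ (I ⊗ X)) ⊗ (P ⊗ X) ⟶ Q ⊗ (I ⊗ (P ⊗ X))` -/
def mulR (Q P : T) : (Q ⊗ (I ⊗ X)) ⊗ (P ⊗ X) ⟶ Q ⊗ (I ⊗ (P ⊗ X)) :=
  (α_ Q (I ⊗ X) (P ⊗ X)).hom ≫ Q ◁ ((α_ I X (P ⊗ X)).hom ≫ I ◁ act mX P)

@[reassoc]
lemma mulR_natQ {Q Q' : T} (f : Q ⟶ Q') (P : T) :
    (f ▷ (I ⊗ X)) ▷ (P ⊗ X) ≫ mulR mX I Q' P = mulR mX I Q P ≫ f ▷ (I ⊗ (P ⊗ X)) := by
  simp only [mulR, Category.assoc]
  rw [associator_naturality_left_assoc, whisker_exchange]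

@[reassoc]
lemma mulR_natP (Q : T) {P P' : T} (g : P ⟶ P') :
    (Q ⊗ (I ⊗ X)) ◁ (g ▷ X) ≫ mulR mX I Q P' = mulR mX I Q P ≫ Q ◁ (I ◁ (g ▷ X)) := by
  simp only [mulR, Category.assoc]
  rw [associator_naturality_right_assoc, ← MonoidalCategory.whiskerLeft_comp,
    ← MonoidalCategory.whiskerLeft_comp, associator_naturality_right_assoc, Category.assoc,
    ← MonoidalCategory.whiskerLeft_comp, ← MonoidalCategory.whiskerLeft_comp, act_nat]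

/-- the product of `a : W₂ ⟶ Q ⊗ (I ⊗ X)` and `o : W₁ ⟶ P ⊗ X` is `a` followed by the
multiplication by `o` inside. -/
lemma mulR_eq {W₁ W₂ Q P : T} (a : W₂ ⟶ Q ⊗ (I ⊗ X)) (o : W₁ ⟶ P ⊗ X) :
    (a ⊗ₘ o) ≫ mulR mX I Q P =
      a ▷ W₁ ≫ (α_ Q (I ⊗ X) W₁).hom ≫ Q ◁ ((α_ I X W₁).hom ≫ I ◁ (X ◁ o ≫ act mX P)) := by
  rw [tensorHom_def, Category.assoc, mulR, associator_naturality_right_assoc,
    ← MonoidalCategory.whiskerLeft_comp, associator_naturality_right_assoc,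
    ← MonoidalCategory.whiskerLeft_comp]

end act

section twX

variable (X I : T)

/-- `Q ⊗ (I ⊗ (P ⊗ X)) ≅ I ⊗ ((Q ⊗ P) ⊗ X)` -/
def twX (Q P : T) : Q ⊗ (I ⊗ (P ⊗ X)) ≅ I ⊗ ((Q ⊗ P) ⊗ X) :=
  (α_ Q I (P ⊗ X)).symm ≪≫ whiskerRightIso (β_ Q I) (P ⊗ X) ≪≫ α_ I Q (P ⊗ X) ≪≫
    whiskerLeftIso I (α_ Q P X).symm

@[reassoc]
lemma twX_natQ {Q Q' : T} (f : Q ⟶ Q') (P : T) :
    f ▷ (I ⊗ (P ⊗ X)) ≫ (twX X I Q' P).hom = (twX X I Q P).hom ≫ I ◁ ((f ▷ P) ▷ X) := by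
  simp only [twX, Iso.trans_hom, Iso.symm_hom, whiskerRightIso_hom, whiskerLeftIso_hom,
    Category.assoc]
  rw [associator_inv_naturality_left_assoc, ← comp_whiskerRight_assoc,
    BraidedCategory.braiding_naturality_left, comp_whiskerRight_assoc,
    associator_naturality_middle_assoc, ← MonoidalCategory.whiskerLeft_comp,
    ← MonoidalCategory.whiskerLeft_comp, associator_inv_naturality_left]

@[reassoc]
lemma twX_natP (Q : T) {P P' : T} (g : P ⟶ P') :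
    Q ◁ (I ◁ (g ▷ X)) ≫ (twX X I Q P').hom = (twX X I Q P).hom ≫ I ◁ ((Q ◁ g) ▷ X) := by
  simp only [twX, Iso.trans_hom, Iso.symm_hom, whiskerRightIso_hom, whiskerLeftIso_hom,
    Category.assoc]
  rw [associator_inv_naturality_right_assoc, whisker_exchange_assoc,
    associator_naturality_right_assoc, ← MonoidalCategory.whiskerLeft_comp,
    ← MonoidalCategory.whiskerLeft_comp, associator_inv_naturality_middle]

end twX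

section sh

variable {X : T} (mX : X ⊗ X ⟶ X) (I : T)

/-- `(Q ⊗ (I ⊗ X)) ⊗ (P ⊗ X) ⟶ I ⊗ ((Q ⊗ P) ⊗ X)` -/
def sh (Q P : T) : (Q ⊗ (I ⊗ X)) ⊗ (P ⊗ X) ⟶ I ⊗ ((Q ⊗ P) ⊗ X) :=
  mulR mX I Q P ≫ (twX X I Q P).hom

@[reassoc]
lemma sh_natQ {Q Q' : T} (f : Q ⟶ Q') (P : T) :
    (f ▷ (I ⊗ X)) ▷ (P ⊗ X) ≫ sh mX I Q' P = sh mX I Q P ≫ I ◁ ((f ▷ P) ▷ X) := by
  unfold sh
  rw [mulR_natQ_assoc, twX_natQ, Category.assoc]

@[reassoc]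
lemma sh_natP (Q : T) {P P' : T} (g : P ⟶ P') :
    (Q ⊗ (I ⊗ X)) ◁ (g ▷ X) ≫ sh mX I Q P' = sh mX I Q P ≫ I ◁ ((Q ◁ g) ▷ X) := by
  unfold sh
  rw [mulR_natP_assoc, twX_natP, Category.assoc]

/-- the product of two maps -/
def pd {W₁ W₂ Q P : T} (a : W₂ ⟶ Q ⊗ (I ⊗ X)) (o : W₁ ⟶ P ⊗ X) :
    W₂ ⊗ W₁ ⟶ I ⊗ ((Q ⊗ P) ⊗ X) := (a ⊗ₘ o) ≫ sh mX I Q P

lemma pd_natQ {W₁ W₂ Q Q' P : T} (a : W₂ ⟶ Q ⊗ (I ⊗ X)) (o : W₁ ⟶ P ⊗ X) (f : Q ⟶ Q') :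
    pd mX I (a ≫ f ▷ (I ⊗ X)) o = pd mX I a o ≫ I ◁ ((f ▷ P) ▷ X) := by
  unfold pd
  rw [tensorHom_def', comp_whiskerRight, Category.assoc, Category.assoc, sh_natQ,
    tensorHom_def', Category.assoc, Category.assoc]

lemma pd_natP {W₁ W₂ Q P P' : T} (a : W₂ ⟶ Q ⊗ (I ⊗ X)) (o : W₁ ⟶ P ⊗ X) (g : P ⟶ P') :
    pd mX I a (o ≫ g ▷ X) = pd mX I a o ≫ I ◁ ((Q ◁ g) ▷ X) := by
  unfold pd
  rw [tensorHom_def, MonoidalCategory.whiskerLeft_comp, Category.assoc, Category.assoc, sh_natP,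
    tensorHom_def, Category.assoc, Category.assoc]

end sh

section theta

/-- `(C ⊗ (E ⊗ K)) ⊗ X ≅ (C ⊗ K) ⊗ (E ⊗ X)` -/
def inn (C K E X : T) : (C ⊗ (E ⊗ K)) ⊗ X ≅ (C ⊗ K) ⊗ (E ⊗ X) :=
  whiskerRightIso (whiskerLeftIso C (β_ E K) ≪≫ (α_ C K E).symm) X ≪≫ α_ (C ⊗ K) E X

@[reassoc]
lemma inn_nat (C K X : T) {E E' : T} (f : E ⟶ E') :
    (C ◁ (f ▷ K)) ▷ X ≫ (inn C K E' X).hom = (inn C K E X).hom ≫ (C ⊗ K) ◁ (f ▷ X) := by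
  simp only [inn, Iso.trans_hom, Iso.symm_hom, whiskerRightIso_hom, whiskerLeftIso_hom,
    Category.assoc, comp_whiskerRight]
  rw [← comp_whiskerRight_assoc, ← MonoidalCategory.whiskerLeft_comp,
    BraidedCategory.braiding_naturality_left, MonoidalCategory.whiskerLeft_comp,
    comp_whiskerRight_assoc, ← comp_whiskerRight_assoc (C ◁ (K ◁ f)),
    associator_inv_naturality_right, comp_whiskerRight_assoc, associator_naturality_middle]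

/-- `D ⊗ (Z ⊗ (E ⊗ X)) ≅ Z ⊗ ((D ⊗ E) ⊗ X)` -/
def out (D Z E X : T) : D ⊗ (Z ⊗ (E ⊗ X)) ≅ Z ⊗ ((D ⊗ E) ⊗ X) :=
  (α_ D Z (E ⊗ X)).symm ≪≫ whiskerRightIso (β_ D Z) (E ⊗ X) ≪≫ α_ Z D (E ⊗ X) ≪≫
    whiskerLeftIso Z (α_ D E X).symm

@[reassoc]
lemma out_natD (Z E X : T) {D D' : T} (f : D ⟶ D') :
    f ▷ (Z ⊗ (E ⊗ X)) ≫ (out D' Z E X).hom = (out D Z E X).hom ≫ Z ◁ ((f ▷ E) ▷ X) := by
  simp only [out, Iso.trans_hom, Iso.symm_hom, whiskerRightIso_hom, whiskerLeftIso_hom,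
    Category.assoc]
  rw [associator_inv_naturality_left_assoc, ← comp_whiskerRight_assoc,
    BraidedCategory.braiding_naturality_left, comp_whiskerRight_assoc,
    associator_naturality_middle_assoc, ← MonoidalCategory.whiskerLeft_comp,
    ← MonoidalCategory.whiskerLeft_comp, associator_inv_naturality_left]

@[reassoc]
lemma out_natE (D Z X : T) {E E' : T} (g : E ⟶ E') :
    D ◁ (Z ◁ (g ▷ X)) ≫ (out D Z E' X).hom = (out D Z E X).hom ≫ Z ◁ ((D ◁ g) ▷ X) := by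
  simp only [out, Iso.trans_hom, Iso.symm_hom, whiskerRightIso_hom, whiskerLeftIso_hom,
    Category.assoc]
  rw [associator_inv_naturality_right_assoc, whisker_exchange_assoc,
    associator_naturality_right_assoc, ← MonoidalCategory.whiskerLeft_comp,
    ← MonoidalCategory.whiskerLeft_comp, associator_inv_naturality_middle]

/-- `D ⊗ ((C ⊗ (E ⊗ K)) ⊗ X) ≅ (C ⊗ K) ⊗ ((D ⊗ E) ⊗ X)` -/
def tth (D C K E X : T) : D ⊗ ((C ⊗ (E ⊗ K)) ⊗ X) ≅ (C ⊗ K) ⊗ ((D ⊗ E) ⊗ X) :=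
  whiskerLeftIso D (inn C K E X) ≪≫ out D (C ⊗ K) E X

@[reassoc]
lemma tth_natD (C K E X : T) {D D' : T} (f : D ⟶ D') :
    f ▷ ((C ⊗ (E ⊗ K)) ⊗ X) ≫ (tth D' C K E X).hom =
      (tth D C K E X).hom ≫ (C ⊗ K) ◁ ((f ▷ E) ▷ X) := by
  simp only [tth, Iso.trans_hom, whiskerLeftIso_hom, Category.assoc]
  rw [← whisker_exchange_assoc, out_natD]

@[reassoc]
lemma tth_natE (D C K X : T) {E E' : T} (g : E ⟶ E') :
    D ◁ ((C ◁ (g ▷ K)) ▷ X) ≫ (tth D C K E' X).hom =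
      (tth D C K E X).hom ≫ (C ⊗ K) ◁ ((D ◁ g) ▷ X) := by
  simp only [tth, Iso.trans_hom, whiskerLeftIso_hom, Category.assoc]
  rw [← MonoidalCategory.whiskerLeft_comp_assoc, inn_nat, MonoidalCategory.whiskerLeft_comp_assoc,
    out_natE]

end theta

end shuffle

section tri

variable {T : Type u} [Category.{v} T] [Preadditive T] [HasZeroObject T] [HasShift T ℤ]
  [∀ n : ℤ, (shiftFunctor T n).Additive] [Pretriangulated T]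
  [MonoidalCategory T] [SymmetricCategory T] [TensorTriangulated T]

/-- **The exchange**: dropping the outer factor `I` and dropping the inner factor `I` have the
same kernel, by (R1). -/
theorem UnitFib.exchange {B : T} [MonObj B] (F : UnitFib B) {X : T}
    (R1 : F.d F.I ▷ X = (F.I ◁ F.i ≫ (ρ_ _).hom) ▷ X) {W C K : T}
    (Ω : W ⟶ F.I ⊗ ((C ⊗ (F.I ⊗ K)) ⊗ X)) (h : Ω ≫ F.I ◁ ((C ◁ F.d K) ▷ X) = 0) :
    Ω ≫ F.d ((C ⊗ (F.I ⊗ K)) ⊗ X) = 0 := by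
  have h1 : Ω ≫ F.I ◁ ((C ◁ (F.i ▷ K)) ▷ X) = 0 := by
    rw [← cancel_mono (F.I ◁ ((C ◁ (λ_ K).hom) ▷ X)), Category.assoc,
      ← MonoidalCategory.whiskerLeft_comp, ← comp_whiskerRight,
      ← MonoidalCategory.whiskerLeft_comp, zero_comp]
    exact h
  have h2 : Ω ≫ (tth F.I C K F.I X).hom ≫ (C ⊗ K) ◁ ((F.I ◁ F.i ≫ (ρ_ _).hom) ▷ X) = 0 := by
    rw [comp_whiskerRight, MonoidalCategory.whiskerLeft_comp, ← tth_natE_assoc, reassoc_of% h1,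
      zero_comp]
  rw [← R1] at h2
  have h3 : Ω ≫ F.i ▷ ((C ⊗ (F.I ⊗ K)) ⊗ X) = 0 := by
    rw [← cancel_mono (tth (𝟙_ T) C K F.I X).hom, Category.assoc, tth_natD, zero_comp,
      ← cancel_mono ((C ⊗ K) ◁ ((λ_ F.I).hom ▷ X)), zero_comp, Category.assoc, Category.assoc,
      ← MonoidalCategory.whiskerLeft_comp, ← comp_whiskerRight]
    exact h2
  rw [UnitFib.d, reassoc_of% h3, zero_comp]

/-- `(Q ⊗ A⟦1⟧) ⊗ X ≅ ((Q ⊗ A) ⊗ X)⟦1⟧` -/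
noncomputable def shY (Q A X : T) : (Q ⊗ A⟦(1 : ℤ)⟧) ⊗ X ≅ ((Q ⊗ A) ⊗ X)⟦(1 : ℤ)⟧ :=
  whiskerRightIso ((tensorShiftOne Q).app A) X ≪≫ Vale.Agent.P251.X.tensRIso (Q ⊗ A) X

@[reassoc]
lemma shY_nat {Q Q' : T} (f : Q ⟶ Q') (A X : T) :
    (f ▷ (A⟦(1 : ℤ)⟧)) ▷ X ≫ (shY Q' A X).hom =
      (shY Q A X).hom ≫ ((f ▷ A) ▷ X)⟦(1 : ℤ)⟧' := by
  simp only [shY, Iso.trans_hom, whiskerRightIso_hom, Category.assoc]
  change (f ▷ (A⟦(1 : ℤ)⟧)) ▷ X ≫ ((tensorShiftOne Q').hom.app A) ▷ X ≫ _ =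
    ((tensorShiftOne Q).hom.app A) ▷ X ≫ _
  rw [← comp_whiskerRight_assoc, tensorShiftOne_nat, comp_whiskerRight_assoc,
    Vale.Agent.P251.X.tensRIso_naturality]
  rfl

/-- the case `Q = 𝟙` -/
lemma shY_unit (A X : T) : (shY (𝟙_ T) A X).hom ≫ (((λ_ A).hom) ▷ X)⟦(1 : ℤ)⟧' =
    ((λ_ (A⟦(1 : ℤ)⟧)).hom) ▷ X ≫ (Vale.Agent.P251.X.tensRIso A X).hom := by
  simp only [shY, Iso.trans_hom, whiskerRightIso_hom, Category.assoc]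
  change ((tensorShiftOne (𝟙_ T)).hom.app A) ▷ X ≫ _ = _
  rw [← Vale.Agent.P251.X.tensRIso_naturality, ← comp_whiskerRight_assoc, tensorShiftOne_unit]

end tri

end Vale.Agent.P257.V4.L
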